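import Crest.Agent.H2.StepEff

/-! Computably approximable families of reals and effective derivative sequences. -/

set_option autoImplicit false

namespace Crest.Agent.H2

open RatComp

/-- a family of reals with computable rational approximations -/
def CA {ι : Type*} [Primcodable ι] (v : ι → ℝ) : Prop :=
  ∃ e : ι × ℕ → ℚ, Computable e ∧ ∀ a n, |v a - (e (a, n) : ℝ)| ≤ 1 / ((n : ℝ) + 1)

namespace CA

variable {ι κ : Type*} [Primcodable ι] [Primcodable κ]

theorem congr {u v : ι → ℝ} (hu : CA u) (h : ∀ a, u a = v a) : CA v := by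
  have : u = v := funext h
  rwa [← this]

theorem comp {v : ι → ℝ} (hv : CA v) {f : κ → ι} (hf : Computable f) : CA fun a => v (f a) := by
  obtain ⟨e, he, h⟩ := hv
  exact ⟨fun p => e (f p.1, p.2), he.comp ((hf.comp Computable.fst).pair Computable.snd),
    fun a n => h (f a) n⟩

theorem ofRat {f : ι → ℚ} (hf : Computable f) : CA fun a => (f a : ℝ) :=
  ⟨fun p => f p.1, hf.comp Computable.fst, fun a n => by simp; positivity⟩

theorem exists_bound {v : ι → ℝ} (hv : CA v) : ∃ B : ι → ℕ, Computable B ∧ ∀ a, |v a| ≤ B a := by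
  obtain ⟨e, he, h⟩ := hv
  have he0 : Computable fun a => e (a, 0) := he.comp (Computable.id.pair (Computable.const 0))
  refine ⟨fun a => posNum (e (a, 0)) + negNum (e (a, 0)) + 1,
    Computable.succ.comp (nat_add'.comp (computable_posNum.comp he0) (computable_negNum.comp he0)), ?_⟩
  intro a
  have h1 := h a 0
  norm_num at h1
  have h2 : |(e (a, 0) : ℚ)| ≤ posNum (e (a, 0)) + negNum (e (a, 0)) := by
    have h3 := rat_repr (e (a, 0))
    have hd : (1 : ℚ) ≤ (e (a, 0)).den := by exact_mod_cast (e (a, 0)).pos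
    rw [h3, abs_div, abs_of_pos (by linarith : (0:ℚ) < ((e (a, 0)).den : ℚ)), ← h3]
    rw [div_le_iff₀ (by linarith)]
    have h4 : |(posNum (e (a, 0)) : ℚ) - negNum (e (a, 0))|
        ≤ posNum (e (a, 0)) + negNum (e (a, 0)) := by
      have p1 : (0 : ℚ) ≤ posNum (e (a, 0)) := by positivity
      have p2 : (0 : ℚ) ≤ negNum (e (a, 0)) := by positivity
      rw [abs_le]; constructor <;> linarith
    refine h4.trans ?_
    have p0 : (0 : ℚ) ≤ (posNum (e (a, 0)) : ℚ) + negNum (e (a, 0)) := by positivity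
    nlinarith
  have h2' : |((e (a, 0) : ℚ) : ℝ)| ≤ posNum (e (a, 0)) + negNum (e (a, 0)) := by
    exact_mod_cast h2
  have h5 : |v a| ≤ |((e (a, 0) : ℚ) : ℝ)| + |v a - ((e (a, 0) : ℚ) : ℝ)| := by
    have := abs_add_le ((e (a, 0) : ℚ) : ℝ) (v a - ((e (a, 0) : ℚ) : ℝ))
    simpa using this
  push_cast
  linarith

theorem add {u v : ι → ℝ} (hu : CA u) (hv : CA v) : CA fun a => u a + v a := by
  obtain ⟨e, he, h⟩ := hu
  obtain ⟨f, hf, h'⟩ := hv
  have hn : Computable fun p : ι × ℕ => 2 * p.2 + 1 :=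
    Computable.succ.comp (nat_mul'.comp (Computable.const 2) Computable.snd)
  refine ⟨fun p => e (p.1, 2 * p.2 + 1) + f (p.1, 2 * p.2 + 1),
    comp_add (he.comp (Computable.fst.pair hn)) (hf.comp (Computable.fst.pair hn)), ?_⟩
  intro a n
  have h1 := h a (2 * n + 1)
  have h2 := h' a (2 * n + 1)
  push_cast at h1 h2 ⊢
  have h3 : 1 / (2 * (n:ℝ) + 1 + 1) + 1 / (2 * (n:ℝ) + 1 + 1) = 1 / ((n:ℝ) + 1) := by
    field_simp; ring
  rw [← h3]
  rw [abs_le] at h1 h2 ⊢
  constructor <;> linarith [h1.1, h1.2, h2.1, h2.2]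

theorem mul {u v : ι → ℝ} (hu : CA u) (hv : CA v) : CA fun a => u a * v a := by
  obtain ⟨Bu, hBu, hbu⟩ := hu.exists_bound
  obtain ⟨Bv, hBv, hbv⟩ := hv.exists_bound
  obtain ⟨e, he, h⟩ := hu
  obtain ⟨f, hf, h'⟩ := hv
  have hn : Computable fun p : ι × ℕ => (Bu p.1 + Bv p.1 + 1) * (p.2 + 1) :=
    nat_mul'.comp (Computable.succ.comp (nat_add'.comp (hBu.comp Computable.fst)
      (hBv.comp Computable.fst))) (Computable.succ.comp Computable.snd)
  refine ⟨fun p => e (p.1, (Bu p.1 + Bv p.1 + 1) * (p.2 + 1)) *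
      f (p.1, (Bu p.1 + Bv p.1 + 1) * (p.2 + 1)),
    comp_mul (he.comp (Computable.fst.pair hn)) (hf.comp (Computable.fst.pair hn)), ?_⟩
  intro a n
  set N := (Bu a + Bv a + 1) * (n + 1) with hN
  have h1 := h a N
  have h2 := h' a N
  have h3 := hbu a
  have h4 := hbv a
  have hNpos : (0:ℝ) < (N:ℝ) + 1 := by positivity
  have hle1 : 1 / ((N:ℝ) + 1) ≤ 1 := by
    rw [div_le_one hNpos]; linarith [(Nat.cast_nonneg N : (0:ℝ) ≤ N)]
  have h5 : |((f (a, N) : ℚ) : ℝ)| ≤ Bv a + 1 := by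
    have : |((f (a, N) : ℚ) : ℝ)| ≤ |v a| + |v a - ((f (a, N) : ℚ) : ℝ)| := by
      have := abs_sub (v a) (v a - ((f (a, N) : ℚ) : ℝ))
      simpa using this
    linarith
  push_cast
  have e1 : u a * v a - ((e (a, N) : ℚ) : ℝ) * ((f (a, N) : ℚ) : ℝ)
      = u a * (v a - ((f (a, N) : ℚ) : ℝ)) + (u a - ((e (a, N) : ℚ) : ℝ)) * ((f (a, N) : ℚ) : ℝ) := by
    ring
  rw [e1]
  refine (abs_add_le _ _).trans ?_
  rw [abs_mul, abs_mul]
  have e2 : |u a| * |v a - ((f (a, N) : ℚ) : ℝ)| ≤ Bu a * (1 / ((N:ℝ) + 1)) := by gcongr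
  have e3 : |u a - ((e (a, N) : ℚ) : ℝ)| * |((f (a, N) : ℚ) : ℝ)| ≤ (1 / ((N:ℝ) + 1)) * (Bv a + 1) := by
    gcongr
  have e4 : (Bu a : ℝ) * (1 / ((N:ℝ) + 1)) + (1 / ((N:ℝ) + 1)) * (Bv a + 1)
      = (Bu a + Bv a + 1) / ((N:ℝ) + 1) := by ring
  have e5 : ((Bu a : ℝ) + Bv a + 1) / ((N:ℝ) + 1) ≤ 1 / ((n:ℝ) + 1) := by
    rw [div_le_div_iff₀ hNpos (by positivity)]
    rw [hN]; push_cast
    linarith
  linarith

theorem neg {u : ι → ℝ} (hu : CA u) : CA fun a => - u a := by
  refine ((ofRat (Computable.const (-1 : ℚ))).mul hu).congr ?_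
  intro a; push_cast; ring

end CA

/-- a sequence of functions, each the derivative of the previous one, with computable
approximations at rational points and computable global bounds -/
structure EffSeq (D : ℕ → ℝ → ℝ) : Prop where
  deriv : ∀ k x, HasDerivAt (D k) (D (k + 1) x) x
  approx : CA fun p : ℕ × ℚ => D p.1 (p.2 : ℝ)
  bound : ∃ B : ℕ → ℕ, Computable B ∧ ∀ k x, |D k x| ≤ B k

theorem effSeq_H : EffSeq Step.D where
  deriv := Step.D_hasDerivAt
  approx := by
    refine ⟨fun p => Step.eH (p.1.1, p.1.2, p.2), Step.computable_eH.comp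
      ((Computable.fst.comp Computable.fst).pair ((Computable.snd.comp Computable.fst).pair
        Computable.snd)), ?_⟩
    rintro ⟨k, q⟩ n
    exact Step.eH_spec k q n
  bound := ⟨fun k => 2 ^ (k * (k + 1)),
    comp_natPow (Computable.const 2) (nat_mul'.comp Computable.id Computable.succ),
    fun k x => by exact_mod_cast Step.D_bound k x⟩

namespace EffSeq

variable {D E : ℕ → ℝ → ℝ}

theorem zero : EffSeq fun _ _ => 0 where
  deriv k x := hasDerivAt_const x (0:ℝ)
  approx := (CA.ofRat (Computable.const (0:ℚ))).congr (fun a => by simp)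
  bound := ⟨fun _ => 0, Computable.const 0, fun k x => by simp⟩

theorem add (hD : EffSeq D) (hE : EffSeq E) : EffSeq fun k x => D k x + E k x where
  deriv k x := (hD.deriv k x).add (hE.deriv k x)
  approx := hD.approx.add hE.approx
  bound := by
    obtain ⟨B, hB, h⟩ := hD.bound
    obtain ⟨C, hC, h'⟩ := hE.bound
    refine ⟨fun k => B k + C k, nat_add'.comp hB hC, fun k x => ?_⟩
    push_cast
    exact (abs_add_le _ _).trans (add_le_add (h k x) (h' k x))

theorem shift (hD : EffSeq D) : EffSeq fun k x => D (k + 1) x where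
  deriv k x := hD.deriv (k + 1) x
  approx := hD.approx.comp (f := fun p : ℕ × ℚ => (p.1 + 1, p.2))
    ((Computable.succ.comp Computable.fst).pair Computable.snd)
  bound := by
    obtain ⟨B, hB, h⟩ := hD.bound
    exact ⟨fun k => B (k + 1), hB.comp Computable.succ, fun k x => h (k + 1) x⟩

theorem smul (hD : EffSeq D) (c : ℚ) : EffSeq fun k x => (c : ℝ) * D k x where
  deriv k x := (hD.deriv k x).const_mul _
  approx := (CA.ofRat (Computable.const c)).mul hD.approx
  bound := by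
    obtain ⟨B, hB, h⟩ := hD.bound
    obtain ⟨M, hM⟩ := exists_nat_ge (|(c : ℝ)|)
    refine ⟨fun k => M * B k, nat_mul'.comp (Computable.const M) hB, fun k x => ?_⟩
    push_cast
    rw [abs_mul]
    exact mul_le_mul hM (h k x) (abs_nonneg _) (Nat.cast_nonneg _)

theorem affine (hD : EffSeq D) (α β : ℚ) : EffSeq fun k x => (α : ℝ) ^ k * D k (α * x + β) where
  deriv k x := by
    have h1 : HasDerivAt (fun x : ℝ => (α : ℝ) * x + β) α x := by
      simpa using ((hasDerivAt_id x).const_mul (α : ℝ)).add_const (β : ℝ)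
    have h2 := ((hD.deriv k (α * x + β)).comp x h1).const_mul ((α : ℝ) ^ k)
    exact h2.congr_deriv (by ring)
  approx := by
    have h1 : Computable fun p : ℕ × ℚ => α ^ p.1 := comp_pow (Computable.const α) Computable.fst
    have h2 : Computable fun p : ℕ × ℚ => (p.1, α * p.2 + β) :=
      Computable.fst.pair (comp_add (comp_mul (Computable.const α) Computable.snd) (Computable.const β))
    refine ((CA.ofRat h1).mul (hD.approx.comp h2)).congr ?_
    intro a
    push_cast
    rfl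
  bound := by
    obtain ⟨B, hB, h⟩ := hD.bound
    obtain ⟨M, hM⟩ := exists_nat_ge (|(α : ℝ)|)
    refine ⟨fun k => M ^ k * B k, nat_mul'.comp (comp_natPow (Computable.const M) Computable.id) hB,
      fun k x => ?_⟩
    push_cast
    rw [abs_mul, abs_pow]
    exact mul_le_mul (pow_le_pow_left₀ (abs_nonneg _) hM k) (h k _) (abs_nonneg _) (by positivity)

theorem sum {F : ℕ → ℕ → ℝ → ℝ} (h : ∀ i, EffSeq (F i)) (m : ℕ) :
    EffSeq fun k x => ∑ i ∈ Finset.range m, F i k x := by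
  induction m with
  | zero => simpa using EffSeq.zero
  | succ m ih =>
    have := ih.add (h m)
    simpa [Finset.sum_range_succ] using this

theorem congr (hD : EffSeq D) (h : ∀ k x, D k x = E k x) : EffSeq E := by
  have : D = E := by funext k x; exact h k x
  rwa [← this]

theorem contDiff_aux (hD : EffSeq D) (n : ℕ) : ∀ k, ContDiff ℝ n (D k) := by
  induction n with
  | zero =>
    intro k
    have : Continuous (D k) := continuous_iff_continuousAt.2 fun x => (hD.deriv k x).continuousAt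
    have h0 : ContDiff ℝ 0 (D k) := contDiff_zero.2 this
    exact_mod_cast h0
  | succ n ih =>
    intro k
    have h1 : _root_.deriv (D k) = D (k + 1) := funext fun x => (hD.deriv k x).deriv
    have : ContDiff ℝ ((n : WithTop ℕ∞) + 1) (D k) := by
      rw [contDiff_succ_iff_deriv]
      refine ⟨fun x => (hD.deriv k x).differentiableAt, by simp, ?_⟩
      rw [h1]; exact ih (k + 1)
    exact_mod_cast this

open scoped ContDiff in
theorem contDiff (hD : EffSeq D) (k : ℕ) : ContDiff ℝ ∞ (D k) :=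
  contDiff_infty.2 fun n => hD.contDiff_aux n k

end EffSeq

/-- computable real numbers -/
def CompReal (κ : ℝ) : Prop := ∃ e : ℕ → ℚ, Computable e ∧ ∀ n : ℕ, |κ - (e n : ℝ)| ≤ 1 / ((n : ℝ) + 1)

theorem CompReal.ca {κ : ℝ} (h : CompReal κ) {ι : Type*} [Primcodable ι] : CA fun _ : ι => κ := by
  obtain ⟨e, he, h⟩ := h
  exact ⟨fun p => e p.2, he.comp Computable.snd, fun _ n => h n⟩

theorem CompReal.ofRat (q : ℚ) : CompReal (q : ℝ) :=
  ⟨fun _ => q, Computable.const q, fun n => by simp; positivity⟩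

theorem CompReal.neg {κ : ℝ} (h : CompReal κ) : CompReal (-κ) := by
  obtain ⟨e, he, h⟩ := h
  refine ⟨fun n => - e n, comp_neg he, fun n => ?_⟩
  have := h n
  push_cast
  rw [show -κ - -(e n : ℝ) = -(κ - e n) by ring, abs_neg]
  exact this

/-- logarithms of rational numbers in `(0,1)` are computable -/
theorem CompReal.log_of_lt_one {r : ℚ} (h0 : 0 < r) (h1 : r < 1) : CompReal (Real.log r) := by
  set x : ℚ := 1 - r with hx
  have hx0 : 0 < x := by rw [hx]; linarith
  have hx1 : x < 1 := by rw [hx]; linarith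
  have hx0' : (0:ℝ) < (x : ℝ) := by exact_mod_cast hx0
  have hx1' : (x : ℝ) < 1 := by exact_mod_cast hx1
  set δ : ℝ := (x : ℝ)⁻¹ - 1 with hδ
  have hδ0 : 0 < δ := by rw [hδ]; have := (one_lt_inv₀ hx0').2 hx1'; linarith
  obtain ⟨M, hM⟩ := exists_nat_ge (1 / ((1 - (x:ℝ)) * δ))
  refine ⟨fun n => - ∑ i ∈ Finset.range (M * (n + 1)), x ^ (i + 1) * ((i + 1 : ℕ) : ℚ)⁻¹, ?_, ?_⟩
  · refine comp_neg (comp_sum (α := ℕ) (f := fun _ i => x ^ (i + 1) * ((i + 1 : ℕ) : ℚ)⁻¹)
      (g := fun n => M * (n + 1)) ?_ (nat_mul'.comp (Computable.const M) Computable.succ))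
    exact comp_mul (comp_pow (Computable.const x) (Computable.succ.comp Computable.snd))
      (comp_natInv (Computable.succ.comp Computable.snd))
  · intro n
    have key := Real.abs_log_sub_add_sum_range_le (x := (x : ℝ)) (by rw [abs_of_pos hx0']; exact hx1')
      (M * (n + 1))
    have e1 : (1 : ℝ) - (x : ℝ) = (r : ℝ) := by rw [hx]; push_cast; ring
    rw [e1] at key
    push_cast
    have e2 : Real.log (r : ℝ) - -∑ i ∈ Finset.range (M * (n + 1)), (x:ℝ) ^ (i + 1) * ((i:ℝ) + 1)⁻¹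
        = (∑ i ∈ Finset.range (M * (n + 1)), (x:ℝ) ^ (i + 1) / ((i:ℝ) + 1)) + Real.log r := by
      simp only [div_eq_mul_inv]; ring
    rw [e2]
    refine key.trans ?_
    rw [abs_of_pos hx0']
    have hr0 : (0:ℝ) < (r:ℝ) := by exact_mod_cast h0

    have h1x : (0:ℝ) < 1 - (x:ℝ) := by linarith
    have hb : 1 + ((M * (n + 1) : ℕ) : ℝ) * δ ≤ ((x:ℝ)⁻¹) ^ (M * (n + 1)) := by
      have := one_add_mul_le_pow (a := δ) (by linarith) (M * (n + 1))
      rw [hδ] at this ⊢
      simpa using this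
    have hxpow : (x:ℝ) ^ (M * (n + 1) + 1) ≤ (1 + ((M * (n + 1) : ℕ) : ℝ) * δ)⁻¹ := by
      calc (x:ℝ) ^ (M * (n + 1) + 1) ≤ (x:ℝ) ^ (M * (n + 1)) := by
            rw [pow_succ]; exact mul_le_of_le_one_right (by positivity) hx1'.le
        _ = (((x:ℝ)⁻¹) ^ (M * (n + 1)))⁻¹ := by rw [inv_pow, inv_inv]
        _ ≤ _ := inv_anti₀ (by positivity) hb
    rw [div_le_div_iff₀ h1x (by positivity)]
    have hM' : 1 ≤ (M:ℝ) * ((1 - (x:ℝ)) * δ) := by
      rw [div_le_iff₀ (by positivity)] at hM; exact hM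
    have h7 : (x:ℝ) ^ (M * (n + 1) + 1) * ((n:ℝ) + 1) ≤ (1 + ((M * (n + 1) : ℕ) : ℝ) * δ)⁻¹ * ((n:ℝ) + 1) := by
      gcongr
    refine h7.trans ?_
    rw [inv_mul_le_iff₀ (by positivity)]
    push_cast
    have h8 : ((n:ℝ) + 1) * 1 ≤ ((n:ℝ) + 1) * ((M:ℝ) * ((1 - (x:ℝ)) * δ)) := by gcongr
    nlinarith [h8, h1x]

theorem CompReal.log {r : ℚ} (h0 : 0 < r) : CompReal (Real.log r) := by
  rcases lt_trichotomy r 1 with h | h | h
  · exact CompReal.log_of_lt_one h0 h
  · rw [h]; simpa using CompReal.ofRat 0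
  · have h2 : CompReal (Real.log ((r⁻¹ : ℚ) : ℝ)) :=
      CompReal.log_of_lt_one (inv_pos.2 h0) (inv_lt_one_of_one_lt₀ h)
    have h3 := h2.neg
    push_cast at h3
    rw [Real.log_inv, neg_neg] at h3
    exact h3

end Crest.Agent.H2
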