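import Mathlib
import Crest.Prelude.Def_BoxFlow

/-! Existence and uniqueness of the flow of a smooth compactly supported field. -/

set_option autoImplicit false

namespace Crest.Agent.H2

open Crest.AnalysisR.BoxFlow Set
open scoped ContDiff NNReal Topology

theorem exists_lipschitz {U : Field} (hU : ContDiff ℝ ∞ U) (hc : HasCompactSupport U) :
    ∃ K : ℝ≥0, ∀ t : ℝ, LipschitzWith K fun x : Fin 3 → ℝ => U (t, x) := by
  obtain ⟨K, hK⟩ := ContDiff.lipschitzWith_of_hasCompactSupport hc hU (by simp)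
  refine ⟨K, fun t => LipschitzWith.of_dist_le_mul fun x y => ?_⟩
  have := hK.dist_le_mul (t, x) (t, y)
  simpa [Prod.dist_eq] using this

theorem exists_solution {U : Field} (hU : ContDiff ℝ ∞ U) (hc : HasCompactSupport U)
    (ht : ∀ p : ℝ × (Fin 3 → ℝ), p.1 ∉ Icc (1 / 4 : ℝ) (3 / 4) → U p = 0) (x : Fin 3 → ℝ) :
    ∃ β : ℝ → (Fin 3 → ℝ), β 0 = x ∧ ∀ t, HasDerivAt β (U (t, β t)) t := by
  obtain ⟨K, hK⟩ := exists_lipschitz hU hc
  obtain ⟨C, hC⟩ := hc.exists_bound_of_continuous hU.continuous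
  have hC0 : 0 ≤ C := (norm_nonneg _).trans (hC (0, 0))
  have h01 : (0:ℝ) ∈ Icc (0:ℝ) 1 := ⟨le_rfl, zero_le_one⟩
  have hpl : IsPicardLindelof (fun t x => U (t, x)) (⟨0, h01⟩ : Icc (0:ℝ) 1) x
      (⟨C, hC0⟩ : ℝ≥0) 0 (⟨C, hC0⟩ : ℝ≥0) K := by
    refine ⟨fun t _ => (hK t).lipschitzOnWith, fun y _ => ?_, fun t _ y _ => hC _, ?_⟩
    · exact (hU.continuous.comp (by fun_prop : Continuous fun t : ℝ => (t, y))).continuousOn
    · simp
  obtain ⟨α, h0, hα⟩ := hpl.exists_eq_forall_mem_Icc_hasDerivWithinAt₀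
  have h0' : α 0 = x := h0
  have hcont : ContinuousOn α (Icc 0 1) := fun t h => (hα t h).continuousWithinAt
  have hin : ∀ t ∈ Ioo (0:ℝ) 1, HasDerivAt α (U (t, α t)) t := fun t h =>
    (hα t (Ioo_subset_Icc_self h)).hasDerivAt (Icc_mem_nhds h.1 h.2)
  -- constant before 1/4
  have c1 : ∀ t ∈ Icc (0:ℝ) (1/4), α t = x := by
    intro t h
    have := constant_of_has_deriv_right_zero (f := α) (a := 0) (b := 1/4)
      (hcont.mono (Icc_subset_Icc_right (by norm_num))) ?_ t h
    · rw [this, h0']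
    · intro s hs
      have h1 : HasDerivWithinAt α (U (s, α s)) (Icc 0 1) s := hα s ⟨hs.1, by linarith [hs.2]⟩
      rw [ht (s, α s) (by simp only [mem_Icc, not_and, not_le]; intro h; linarith [hs.2])] at h1
      have h2 : Icc (0:ℝ) 1 ∈ 𝓝[Ici s] s := by
        have : Icc s 1 ∈ 𝓝[Ici s] s := Icc_mem_nhdsGE (by linarith [hs.2])
        exact Filter.mem_of_superset this (Icc_subset_Icc_left hs.1)
      exact h1.mono_of_mem_nhdsWithin h2
  have c2 : ∀ t ∈ Icc (3/4:ℝ) 1, α t = α 1 := by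
    have key : ∀ t ∈ Icc (3/4:ℝ) 1, α t = α (3/4) := by
      intro t h
      refine constant_of_has_deriv_right_zero (f := α) (a := 3/4) (b := 1)
        (hcont.mono (Icc_subset_Icc_left (by norm_num))) ?_ t h
      intro s hs
      have h1 : HasDerivWithinAt α (U (s, α s)) (Icc 0 1) s := hα s ⟨by linarith [hs.1], hs.2.le⟩
      have h2 : Icc (0:ℝ) 1 ∈ 𝓝[Ici s] s := by
        have : Icc s 1 ∈ 𝓝[Ici s] s := Icc_mem_nhdsGE hs.2
        exact Filter.mem_of_superset this (Icc_subset_Icc_left (by linarith [hs.1]))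
      have h3 := h1.mono_of_mem_nhdsWithin h2
      have h4 : U (s, α s) = 0 := by
        rcases eq_or_lt_of_le hs.1 with h5 | h5
        · -- continuity at 3/4
          have h6 : Continuous fun r : ℝ => U (r, α s) :=
            hU.continuous.comp (by fun_prop)
          have h7 : Filter.Tendsto (fun r : ℝ => U (r, α s)) (𝓝[>] s) (𝓝 (U (s, α s))) :=
            (h6.tendsto s).mono_left nhdsWithin_le_nhds
          have h8 : Filter.Tendsto (fun r : ℝ => U (r, α s)) (𝓝[>] s) (𝓝 0) := by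
            refine Filter.Tendsto.congr' ?_ tendsto_const_nhds
            filter_upwards [self_mem_nhdsWithin] with r hr
            have : s < r := hr
            rw [ht (r, α s) (by simp only [mem_Icc, not_and, not_le]; intro; linarith)]
          exact tendsto_nhds_unique h7 h8
        · exact ht _ (by simp only [mem_Icc, not_and, not_le]; intro; linarith)
      rwa [h4] at h3
    intro t h
    rw [key t h, key 1 ⟨by norm_num, le_rfl⟩]
  set β : ℝ → (Fin 3 → ℝ) := fun t => if t < 0 then x else if t ≤ 1 then α t else α 1 with hβ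
  have b1 : ∀ t, t ≤ 1/4 → β t = x := by
    intro t h
    simp only [hβ]
    split_ifs with h1 h2
    · rfl
    · exact c1 t ⟨not_lt.1 h1, h⟩
    · linarith
  have b2 : ∀ t, 3/4 ≤ t → β t = α 1 := by
    intro t h
    simp only [hβ]
    split_ifs with h1 h2
    · linarith
    · exact c2 t ⟨h, h2⟩
    · rfl
  have b3 : ∀ t ∈ Ioo (0:ℝ) 1, β t = α t := by
    intro t h
    simp only [hβ, if_neg (not_lt.2 h.1.le), if_pos h.2.le]
  refine ⟨β, b1 0 (by norm_num), fun t => ?_⟩
  rcases lt_or_ge t (1/4) with h | h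
  · rw [ht (t, β t) (by simp only [mem_Icc, not_and, not_le]; intro h'; linarith)]
    refine (hasDerivAt_const t x).congr_of_eventuallyEq ?_
    filter_upwards [Iio_mem_nhds h] with s hs
    exact b1 s (le_of_lt hs)
  · rcases lt_or_ge (3/4) t with h2 | h2
    · rw [ht (t, β t) (by simp only [mem_Icc, not_and, not_le]; intro h'; linarith)]
      refine (hasDerivAt_const t (α 1)).congr_of_eventuallyEq ?_
      filter_upwards [Ioi_mem_nhds h2] with s hs
      exact b2 s (le_of_lt hs)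
    · have h3 : t ∈ Ioo (0:ℝ) 1 := ⟨by linarith, by linarith⟩
      rw [b3 t h3]
      refine (hin t h3).congr_of_eventuallyEq ?_
      filter_upwards [Ioo_mem_nhds h3.1 h3.2] with s hs
      exact b3 s hs

theorem solution_unique {U : Field} (hU : ContDiff ℝ ∞ U) (hc : HasCompactSupport U)
    {β γ : ℝ → (Fin 3 → ℝ)} (hβ : ∀ t, HasDerivAt β (U (t, β t)) t)
    (hγ : ∀ t, HasDerivAt γ (U (t, γ t)) t) (h : β 0 = γ 0) : β = γ := by
  obtain ⟨K, hK⟩ := exists_lipschitz hU hc
  exact ODE_solution_unique_univ (v := fun t x => U (t, x)) (s := fun _ => univ) (t₀ := 0)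
    (fun t => (hK t).lipschitzOnWith) (fun t => ⟨hβ t, mem_univ _⟩) (fun t => ⟨hγ t, mem_univ _⟩) h

end Crest.Agent.H2
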