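import Crest.Agent.H2.Local
import Crest.Agent.H2.Flow

/-! Configurations of boxes and reachability. -/

set_option autoImplicit false

namespace Crest.Agent.H2

open Crest.AnalysisR.BoxFlow Set
open scoped ContDiff NNReal Topology

variable {n : ℕ}

def Good (A : Fin n → Bx) : Prop := ∀ i m, 0 < (A i).2 m

def Reach (s t : ℚ) (A B : Fin n → Bx) : Prop :=
  ∃ U : Field, Nice U ∧ (∀ z, (z.1 ≤ (s : ℝ) ∨ (t : ℝ) ≤ z.1) → U z = 0) ∧
    ∀ i, ∃ O : Set (Fin 3 → ℝ), IsOpen O ∧ box (A i).1 (A i).2 ⊆ O ∧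
      ∀ x ∈ O, Traj U s t x (affMap (A i) (B i) x)

theorem affMap_self {p : Bx} (hp : ∀ m, 0 < p.2 m) (x : Fin 3 → ℝ) : affMap p p x = x := by
  funext m
  simp [affMap, div_self (hp m).ne']

theorem affMap_comp {p q r : Bx} (hq : ∀ m, 0 < q.2 m) (x : Fin 3 → ℝ) :
    affMap q r (affMap p q x) = affMap p r x := by
  funext m
  have h : r.2 m / p.2 m = (r.2 m / q.2 m) * (q.2 m / p.2 m) := by
    have := (hq m).ne'
    field_simp
  simp only [affMap]
  rw [h]
  push_cast
  ring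

theorem continuous_affMap (p q : Bx) : Continuous (affMap p q) := by
  unfold affMap
  fun_prop

theorem affMap_box {p q : Bx} (hp : ∀ m, 0 < p.2 m) (hq : ∀ m, 0 < q.2 m) {x : Fin 3 → ℝ}
    (hx : x ∈ box p.1 p.2) : affMap p q x ∈ box q.1 q.2 := by
  intro m
  have h1 := hx m
  have hρ : (0:ℝ) < ((q.2 m / p.2 m : ℚ) : ℝ) := by exact_mod_cast div_pos (hq m) (hp m)
  simp only [affMap, add_sub_cancel_left, abs_mul, abs_of_pos hρ]
  have h6 : ((q.2 m / p.2 m : ℚ) : ℝ) * (p.2 m : ℝ) = q.2 m := by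
    rw [← Rat.cast_mul, div_mul_cancel₀ _ (hp m).ne']
  calc _ ≤ ((q.2 m / p.2 m : ℚ) : ℝ) * (p.2 m : ℝ) := mul_le_mul_of_nonneg_left h1 hρ.le
    _ = _ := h6

theorem traj_const {U : Field} {s t : ℚ} {x : Fin 3 → ℝ} (h : ∀ τ, U (τ, x) = 0) : Traj U s t x x :=
  ⟨fun _ => x, fun τ => by rw [h τ]; exact hasDerivAt_const _ _, fun _ _ => rfl, fun _ _ => rfl⟩

theorem Reach.refl {A : Fin n → Bx} (hA : Good A) (s t : ℚ) : Reach s t A A := by
  refine ⟨fun _ => 0, Nice.zero, fun _ _ => rfl, fun i => ⟨univ, isOpen_univ, subset_univ _,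
    fun x _ => ?_⟩⟩
  rw [affMap_self (hA i)]
  exact traj_const fun _ => rfl

theorem Reach.trans {A B C : Fin n → Bx} (hA : Good A) (hB : Good B) {s m t : ℚ} (hsm : s < m)
    (hmt : m < t) (h1 : Reach s m A B) (h2 : Reach m t B C) : Reach s t A C := by
  obtain ⟨U, hU, hU0, hUO⟩ := h1
  obtain ⟨V, hV, hV0, hVO⟩ := h2
  have hsm' : (s : ℝ) < m := by exact_mod_cast hsm
  have hmt' : (m : ℝ) < t := by exact_mod_cast hmt
  refine ⟨fun p => U p + V p, hU.add hV, ?_, ?_⟩
  · intro z hz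
    have e1 : U z = 0 := by
      rcases hz with h | h
      · exact hU0 z (Or.inl h)
      · exact hU0 z (Or.inr (by linarith))
    have e2 : V z = 0 := by
      rcases hz with h | h
      · exact hV0 z (Or.inl (by linarith))
      · exact hV0 z (Or.inr h)
    simp [e1, e2]
  · intro i
    obtain ⟨O, hO, hbO, hT⟩ := hUO i
    obtain ⟨P, hP, hbP, hT'⟩ := hVO i
    refine ⟨O ∩ affMap (A i) (B i) ⁻¹' P, hO.inter (hP.preimage (continuous_affMap _ _)), ?_, ?_⟩
    · intro x hx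
      exact ⟨hbO hx, hbP (affMap_box (hA i) (hB i) hx)⟩
    · rintro x ⟨hxO, hxP⟩
      obtain ⟨γ, hγ, hγ0, hγ1⟩ := hT x hxO
      obtain ⟨β, hβ, hβ0, hβ1⟩ := hT' _ hxP
      rw [affMap_comp (hB i)] at hβ1
      set y := affMap (A i) (B i) x with hy
      refine ⟨fun τ => γ τ + β τ - y, fun τ => ?_, fun τ hτ => ?_, fun τ hτ => ?_⟩
      · have hd := ((hγ τ).add (hβ τ)).sub_const y
        refine hd.congr_deriv ?_
        rcases le_total τ (m : ℝ) with h | h
        · have e1 : γ τ + β τ - y = γ τ := by rw [hβ0 τ h]; simp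
          show _ = U (τ, γ τ + β τ - y) + V (τ, γ τ + β τ - y)
          rw [e1, hV0 (τ, β τ) (Or.inl h), hV0 (τ, γ τ) (Or.inl h)]
        · have e1 : γ τ + β τ - y = β τ := by rw [hγ1 τ h]; simp
          show _ = U (τ, γ τ + β τ - y) + V (τ, γ τ + β τ - y)
          rw [e1, hU0 (τ, β τ) (Or.inr h), hU0 (τ, γ τ) (Or.inr h)]
      · show γ τ + β τ - y = x
        rw [hγ0 τ hτ, hβ0 τ (by linarith)]; simp
      · show γ τ + β τ - y = _
        rw [hγ1 τ (by linarith), hβ1 τ hτ]; simp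

/-- moving boxes `p` and `q` are both on the same side of `r` in some coordinate -/
def CoSep (p q r : Bx) : Prop := ∃ m, (p.1 m + p.2 m < r.1 m - r.2 m ∧ q.1 m + q.2 m < r.1 m - r.2 m) ∨
  (r.1 m + r.2 m < p.1 m - p.2 m ∧ r.1 m + r.2 m < q.1 m - q.2 m)

theorem CoSep.symm {p q r : Bx} (h : CoSep p q r) : CoSep q p r := by
  obtain ⟨m, h | h⟩ := h
  · exact ⟨m, Or.inl ⟨h.2, h.1⟩⟩
  · exact ⟨m, Or.inr ⟨h.2, h.1⟩⟩

structure Step (A B : Fin n → Bx) (i : Fin n) : Prop where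
  fix : ∀ i', i' ≠ i → B i' = A i'
  single : Single (A i) (B i)
  posA : ∀ m, 0 < (A i).2 m
  posB : ∀ m, 0 < (B i).2 m
  sep : ∀ i', i' ≠ i → CoSep (A i) (B i) (A i')

theorem Step.symm {A B : Fin n → Bx} {i : Fin n} (h : Step A B i) : Step B A i where
  fix i' hi' := (h.fix i' hi').symm
  single := h.single.symm
  posA := h.posB
  posB := h.posA
  sep i' hi' := by rw [h.fix i' hi']; exact (h.sep i' hi').symm

theorem exists_uniform {P : Fin n → ℚ → Prop} (h : ∀ i, ∃ η > 0, P i η)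
    (mono : ∀ i η η', 0 < η' → η' ≤ η → P i η → P i η') : ∃ η > 0, ∀ i, P i η := by
  choose f hf hP using h
  have hs : 0 < ∑ i, (f i)⁻¹ + 1 := by
    have : 0 ≤ ∑ i, (f i)⁻¹ := Finset.sum_nonneg fun i _ => (inv_pos.2 (hf i)).le
    linarith
  refine ⟨(∑ i, (f i)⁻¹ + 1)⁻¹, inv_pos.2 hs, fun i => mono i (f i) _ (inv_pos.2 hs) ?_ (hP i)⟩
  rw [inv_le_comm₀ hs (hf i)]
  have := Finset.single_le_sum (f := fun i => (f i)⁻¹) (fun i _ => (inv_pos.2 (hf i)).le)
    (Finset.mem_univ i)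
  linarith

theorem Step.reach {A B : Fin n → Bx} {i : Fin n} (h : Step A B i) (hA : Good A) {s t : ℚ}
    (hst : s < t) : Reach s t A B := by
  have key : ∃ η > (0:ℚ), ∀ i', i' ≠ i → ∃ m,
      max ((A i).1 m + (A i).2 m) ((B i).1 m + (B i).2 m) + η < (A i').1 m - (A i').2 m ∨
      (A i').1 m + (A i').2 m < min ((A i).1 m - (A i).2 m) ((B i).1 m - (B i).2 m) - η := by
    apply exists_uniform
    · intro i'
      by_cases hi : i' = i
      · exact ⟨1, one_pos, fun h => absurd hi h⟩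
      · obtain ⟨m, hm | hm⟩ := h.sep i' hi
        · have h1 := max_lt hm.1 hm.2
          refine ⟨((A i').1 m - (A i').2 m - max ((A i).1 m + (A i).2 m) ((B i).1 m + (B i).2 m)) / 2,
            by linarith, fun _ => ⟨m, Or.inl (by linarith)⟩⟩
        · have h1 := lt_min hm.1 hm.2
          refine ⟨(min ((A i).1 m - (A i).2 m) ((B i).1 m - (B i).2 m) - ((A i').1 m + (A i').2 m)) / 2,
            by linarith, fun _ => ⟨m, Or.inr (by linarith)⟩⟩
    · intro i' η η' h0 hle hP hi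
      obtain ⟨m, hm⟩ := hP hi
      exact ⟨m, hm.imp (fun h => by linarith) (fun h => by linarith)⟩
  obtain ⟨η, hη, hsep⟩ := key
  obtain ⟨U, hU, hU0, hv, hO⟩ := local_move (A i) (B i) h.posA h.posB h.single s t hst η hη
  refine ⟨U, hU, hU0, fun i' => ?_⟩
  by_cases hi : i' = i
  · subst hi; exact hO
  · rw [h.fix i' hi]
    obtain ⟨m, hm | hm⟩ := hsep i' hi
    · refine ⟨{x | ((max ((A i).1 m + (A i).2 m) ((B i).1 m + (B i).2 m) + η : ℚ) : ℝ) < x m},
        isOpen_lt continuous_const (continuous_apply m), ?_, ?_⟩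
      · intro x hx
        have h1 := abs_le.1 (hx m)
        have h2 : ((max ((A i).1 m + (A i).2 m) ((B i).1 m + (B i).2 m) + η : ℚ) : ℝ) <
          ((A i').1 m - (A i').2 m : ℚ) := by exact_mod_cast hm
        rw [mem_ofPred_eq]
        push_cast at h2 ⊢
        linarith [h1.1]
      · intro x hx
        rw [affMap_self (hA i')]
        exact traj_const fun τ => hv (τ, x) ⟨m, Or.inr (le_of_lt hx)⟩
    · refine ⟨{x | x m < ((min ((A i).1 m - (A i).2 m) ((B i).1 m - (B i).2 m) - η : ℚ) : ℝ)},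
        isOpen_lt (continuous_apply m) continuous_const, ?_, ?_⟩
      · intro x hx
        have h1 := abs_le.1 (hx m)
        have h2 : ((((A i').1 m + (A i').2 m) : ℚ) : ℝ) <
          ((min ((A i).1 m - (A i).2 m) ((B i).1 m - (B i).2 m) - η : ℚ) : ℝ) := by exact_mod_cast hm
        rw [mem_ofPred_eq]
        push_cast at h2 ⊢
        linarith [h1.2]
      · intro x hx
        rw [affMap_self (hA i')]
        exact traj_const fun τ => hv (τ, x) ⟨m, Or.inl (le_of_lt hx)⟩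

def Path (A B : Fin n → Bx) : Prop := Relation.ReflTransGen (fun A B => ∃ i, Step A B i) A B

theorem Path.symm {A B : Fin n → Bx} (h : Path A B) : Path B A := by
  unfold Path at h ⊢
  induction h with
  | refl => exact Relation.ReflTransGen.refl
  | tail _ hC ih =>
    obtain ⟨i, hi⟩ := hC
    exact Relation.ReflTransGen.head ⟨i, hi.symm⟩ ih

theorem Path.trans {A B C : Fin n → Bx} (h : Path A B) (h' : Path B C) : Path A C :=
  Relation.ReflTransGen.trans h h'

theorem Path.reach {A B : Fin n → Bx} (h : Path A B) (hA : Good A) :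
    Good B ∧ ∀ s t : ℚ, s < t → Reach s t A B := by
  induction h with
  | refl => exact ⟨hA, fun s t _ => Reach.refl hA s t⟩
  | @tail B C hB hC ih =>
    obtain ⟨hgB, hr⟩ := ih
    obtain ⟨i, hi⟩ := hC
    refine ⟨?_, fun s t hst => ?_⟩
    · intro i' m
      by_cases h : i' = i
      · rw [h]; exact hi.posB m
      · rw [hi.fix i' h]; exact hgB i' m
    · exact Reach.trans hA hgB (m := (s + t) / 2) (by linarith) (by linarith)
        (hr _ _ (by linarith)) (hi.reach hgB (by linarith))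

end Crest.Agent.H2
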