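import Crest.Agent.H2.Shapes
import Crest.Prelude.Def_BoxFlow

/-! Effectivity, smoothness and incompressibility of separated planar stream-function fields. -/

set_option autoImplicit false

namespace Crest.Agent.H2

open Crest.AnalysisR.BoxFlow RatComp
open scoped ContDiff

theorem comp_finFun {α σ : Type*} [Primcodable α] [Primcodable σ] {n : ℕ} {f : Fin n → α → σ}
    (hf : ∀ i, Computable (f i)) : Computable fun a => (fun i => f i a) := by
  have h1 : Computable fun a => List.Vector.ofFn fun i => f i a := Computable.vector_ofFn hf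
  have h2 : Computable (@List.Vector.get σ n) := Primrec.vector_get'.to_comp
  refine (h2.comp h1).of_eq ?_
  intro a
  funext i
  exact List.Vector.get_ofFn _ _

theorem comp_count (d : Fin 4) : Computable fun ds : List (Fin 4) => ds.count d := by
  have h1 : PrimrecPred fun x : Fin 4 => x = d := Primrec.eq.comp Primrec.id (Primrec.const d)
  have h2 : Primrec fun ds : List (Fin 4) => (ds.filter (fun x => decide (x = d))).length :=
    Primrec.list_length.comp (Primrec.listFilter h1)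
  refine h2.to_comp.of_eq ?_
  intro ds
  rw [List.count_eq_length_filter]
  rfl

/-- effectivity of a field, componentwise -/
structure EffField (U : Field) : Prop where
  smooth : ContDiff ℝ ∞ U
  approx : ∀ c : Fin 3, CA fun a : List (Fin 4) × (ℚ × (Fin 3 → ℚ)) =>
    mixedDeriv a.1 U ((a.2.1 : ℝ), ratPoint a.2.2) c
  bound : ∃ B : List (Fin 4) → ℕ, Computable B ∧ ∀ ds p (c : Fin 3), |mixedDeriv ds U p c| ≤ B ds

theorem EffField.effective {U : Field} (h : EffField U) : Effective U := by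
  choose e he hb using h.approx
  obtain ⟨B, hB, hB'⟩ := h.bound
  refine ⟨fun a => fun c => e c ((a.1, a.2.1), a.2.2), B, ?_, hB, ?_, hB'⟩
  · apply comp_finFun
    intro c
    exact (he c).comp ((Computable.fst.pair (Computable.fst.comp Computable.snd)).pair
      (Computable.snd.comp Computable.snd))
  · intro ds t q n c
    exact hb c (ds, (t, q)) n

theorem mixedDeriv_contDiff {U : Field} (h : ContDiff ℝ ∞ U) (ds : List (Fin 4)) :
    ContDiff ℝ ∞ (mixedDeriv ds U) := by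
  induction ds with
  | nil => exact h
  | cons d ds ih =>
    have h1 : ContDiff ℝ ∞ (fderiv ℝ (mixedDeriv ds U)) := ih.fderiv_right (by simp)
    exact h1.clm_apply contDiff_const

theorem mixedDeriv_add {U V : Field} (hU : ContDiff ℝ ∞ U) (hV : ContDiff ℝ ∞ V)
    (ds : List (Fin 4)) : mixedDeriv ds (fun p => U p + V p) = fun p => mixedDeriv ds U p + mixedDeriv ds V p := by
  induction ds with
  | nil => rfl
  | cons d ds ih =>
    funext p
    show fderiv ℝ (mixedDeriv ds (fun p => U p + V p)) p (direction d) = _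
    rw [ih]
    have h1 := (mixedDeriv_contDiff hU ds).differentiable (by simp) p
    have h2 := (mixedDeriv_contDiff hV ds).differentiable (by simp) p
    rw [fderiv_fun_add h1 h2]
    rfl

theorem EffField.add {U V : Field} (hU : EffField U) (hV : EffField V) :
    EffField fun p => U p + V p where
  smooth := hU.smooth.add hV.smooth
  approx c := by
    refine ((hU.approx c).add (hV.approx c)).congr ?_
    intro a
    rw [mixedDeriv_add hU.smooth hV.smooth]
    rfl
  bound := by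
    obtain ⟨B, hB, hb⟩ := hU.bound
    obtain ⟨C, hC, hc⟩ := hV.bound
    refine ⟨fun ds => B ds + C ds, nat_add'.comp hB hC, fun ds p c => ?_⟩
    rw [mixedDeriv_add hU.smooth hV.smooth]
    push_cast
    exact (abs_add_le _ _).trans (add_le_add (hb ds p c) (hc ds p c))

theorem mixedDeriv_zero (ds : List (Fin 4)) : mixedDeriv ds (fun _ => 0) = fun _ => 0 := by
  induction ds with
  | nil => rfl
  | cons d ds ih =>
    funext p
    show fderiv ℝ (mixedDeriv ds (fun _ => 0)) p (direction d) = _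
    rw [ih]
    simp

theorem EffField.zero : EffField fun _ => 0 where
  smooth := contDiff_const
  approx c := by
    refine (CA.ofRat (Computable.const (0:ℚ))).congr ?_
    intro a
    rw [mixedDeriv_zero]; simp
  bound := ⟨fun _ => 0, Computable.const 0, fun ds p c => by rw [mixedDeriv_zero]; simp⟩

/-- separated product -/
noncomputable def MM (κ : ℝ) (g : ℕ → ℝ → ℝ) (f : Fin 3 → ℕ → ℝ → ℝ) (e : Fin 4 → ℕ)
    (p : ℝ × (Fin 3 → ℝ)) : ℝ :=
  κ * (g (e 0) p.1 * (f 0 (e 1) (p.2 0) * (f 1 (e 2) (p.2 1) * f 2 (e 3) (p.2 2))))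

section

variable {κ : ℝ} {g : ℕ → ℝ → ℝ} {f : Fin 3 → ℕ → ℝ → ℝ}

theorem hasFDerivAt_fst_comp {a : ℝ → ℝ} {a' : ℝ} (p : ℝ × (Fin 3 → ℝ)) (h : HasDerivAt a a' p.1) :
    HasFDerivAt (fun p : ℝ × (Fin 3 → ℝ) => a p.1) (a' • ContinuousLinearMap.fst ℝ ℝ (Fin 3 → ℝ)) p :=
  h.comp_hasFDerivAt p hasFDerivAt_fst

theorem hasFDerivAt_snd_comp {a : ℝ → ℝ} {a' : ℝ} (i : Fin 3) (p : ℝ × (Fin 3 → ℝ))
    (h : HasDerivAt a a' (p.2 i)) :
    HasFDerivAt (fun p : ℝ × (Fin 3 → ℝ) => a (p.2 i))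
      (a' • ((ContinuousLinearMap.proj i : (Fin 3 → ℝ) →L[ℝ] ℝ).comp
        (ContinuousLinearMap.snd ℝ ℝ (Fin 3 → ℝ)))) p := by
  have h1 : HasFDerivAt (fun p : ℝ × (Fin 3 → ℝ) => p.2 i)
      ((ContinuousLinearMap.proj i : (Fin 3 → ℝ) →L[ℝ] ℝ).comp
        (ContinuousLinearMap.snd ℝ ℝ (Fin 3 → ℝ))) p :=
    ((ContinuousLinearMap.proj i : (Fin 3 → ℝ) →L[ℝ] ℝ).comp
        (ContinuousLinearMap.snd ℝ ℝ (Fin 3 → ℝ))).hasFDerivAt
  exact h.comp_hasFDerivAt p h1

theorem MM_hasFDerivAt (hg : EffSeq g) (hf : ∀ i, EffSeq (f i)) (e : Fin 4 → ℕ)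
    (p : ℝ × (Fin 3 → ℝ)) :
    ∃ L : (ℝ × (Fin 3 → ℝ)) →L[ℝ] ℝ, HasFDerivAt (MM κ g f e) L p ∧
      ∀ d : Fin 4, L (direction d) = MM κ g f (e + Pi.single d 1) p := by
  have h0 := hasFDerivAt_fst_comp p (hg.deriv (e 0) p.1)
  have h1 := hasFDerivAt_snd_comp 0 p ((hf 0).deriv (e 1) (p.2 0))
  have h2 := hasFDerivAt_snd_comp 1 p ((hf 1).deriv (e 2) (p.2 1))
  have h3 := hasFDerivAt_snd_comp 2 p ((hf 2).deriv (e 3) (p.2 2))
  refine ⟨_, (h0.fun_mul (h1.fun_mul (h2.fun_mul h3))).const_mul κ, ?_⟩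
  intro d
  fin_cases d <;>
    simp [-mul_eq_mul_left_iff, direction, MM, Fin.pred] <;> ring

/-- bounds of the factors -/
theorem MM_bound (hg : EffSeq g) (hf : ∀ i, EffSeq (f i)) (κ : ℝ) (u : Fin 4 → ℕ) :
    ∃ B : List (Fin 4) → ℕ, Computable B ∧ ∀ ds p, |MM κ g f (u + fun d => ds.count d) p| ≤ B ds := by
  obtain ⟨Bg, hBg, hg'⟩ := hg.bound
  obtain ⟨B0, hB0, h0'⟩ := (hf 0).bound
  obtain ⟨B1, hB1, h1'⟩ := (hf 1).bound
  obtain ⟨B2, hB2, h2'⟩ := (hf 2).bound
  obtain ⟨M, hM⟩ := exists_nat_ge (|κ|)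
  have hc : ∀ d : Fin 4, Computable fun ds : List (Fin 4) => u d + ds.count d := fun d =>
    nat_add'.comp (Computable.const (u d)) (comp_count d)
  refine ⟨fun ds => M * (Bg (u 0 + ds.count 0) * (B0 (u 1 + ds.count 1) *
    (B1 (u 2 + ds.count 2) * B2 (u 3 + ds.count 3)))),
    nat_mul'.comp (Computable.const M) (nat_mul'.comp (hBg.comp (hc 0)) (nat_mul'.comp (hB0.comp (hc 1))
      (nat_mul'.comp (hB1.comp (hc 2)) (hB2.comp (hc 3))))), ?_⟩
  intro ds p
  unfold MM
  simp only [Pi.add_apply, abs_mul]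
  push_cast
  have a := hg' (u 0 + ds.count 0) p.1
  have b := h0' (u 1 + ds.count 1) (p.2 0)
  have c := h1' (u 2 + ds.count 2) (p.2 1)
  have d := h2' (u 3 + ds.count 3) (p.2 2)
  gcongr

theorem MM_ca (hg : EffSeq g) (hf : ∀ i, EffSeq (f i)) (hκ : CompReal κ) (u : Fin 4 → ℕ) :
    CA fun a : List (Fin 4) × (ℚ × (Fin 3 → ℚ)) =>
      MM κ g f (u + fun d => a.1.count d) ((a.2.1 : ℝ), ratPoint a.2.2) := by
  have hc : ∀ d : Fin 4, Computable fun a : List (Fin 4) × (ℚ × (Fin 3 → ℚ)) => u d + a.1.count d :=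
    fun d => nat_add'.comp (Computable.const (u d)) ((comp_count d).comp Computable.fst)
  have hq : ∀ i : Fin 3, Computable fun a : List (Fin 4) × (ℚ × (Fin 3 → ℚ)) => a.2.2 i := by
    intro i
    exact Computable.fin_app.comp (Computable.snd.comp Computable.snd) (Computable.const i)
  have a0 := hg.approx.comp ((hc 0).pair (Computable.fst.comp Computable.snd))
  have a1 := (hf 0).approx.comp ((hc 1).pair (hq 0))
  have a2 := (hf 1).approx.comp ((hc 2).pair (hq 1))
  have a3 := (hf 2).approx.comp ((hc 3).pair (hq 2))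
  exact (hκ.ca.mul (a0.mul (a1.mul (a2.mul a3)))).congr fun a => rfl

theorem MM_contDiff (hg : EffSeq g) (hf : ∀ i, EffSeq (f i)) (κ : ℝ) (e : Fin 4 → ℕ) :
    ContDiff ℝ ∞ (MM κ g f e) := by
  unfold MM
  have hp : ∀ i : Fin 3, ContDiff ℝ ∞ fun p : ℝ × (Fin 3 → ℝ) => p.2 i := fun i =>
    (contDiff_apply ℝ ℝ i).comp contDiff_snd
  exact contDiff_const.mul (((hg.contDiff _).comp contDiff_fst).mul
    ((((hf 0).contDiff _).comp (hp 0)).mul ((((hf 1).contDiff _).comp (hp 1)).mul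
      (((hf 2).contDiff _).comp (hp 2)))))

/-- the planar stream function field in directions `j`, `l` -/
noncomputable def WW (κ : ℝ) (g : ℕ → ℝ → ℝ) (f : Fin 3 → ℕ → ℝ → ℝ) (j l : Fin 3) (e : Fin 4 → ℕ)
    (p : ℝ × (Fin 3 → ℝ)) : Fin 3 → ℝ := fun c =>
  if c = j then MM κ g f (e + Pi.single l.succ 1) p
  else if c = l then MM (-κ) g f (e + Pi.single j.succ 1) p else 0

theorem WW_contDiff (hg : EffSeq g) (hf : ∀ i, EffSeq (f i)) (κ : ℝ) (j l : Fin 3) (e : Fin 4 → ℕ) :
    ContDiff ℝ ∞ (WW κ g f j l e) := by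
  rw [contDiff_pi]
  intro c
  unfold WW
  split_ifs
  · exact MM_contDiff hg hf _ _
  · exact MM_contDiff hg hf _ _
  · exact contDiff_const

theorem WW_hasFDerivAt (hg : EffSeq g) (hf : ∀ i, EffSeq (f i)) (κ : ℝ) (j l : Fin 3) (e : Fin 4 → ℕ)
    (p : ℝ × (Fin 3 → ℝ)) :
    ∃ L : (ℝ × (Fin 3 → ℝ)) →L[ℝ] (Fin 3 → ℝ), HasFDerivAt (WW κ g f j l e) L p ∧
      ∀ d : Fin 4, L (direction d) = WW κ g f j l (e + Pi.single d 1) p := by
  have key : ∀ c : Fin 3, ∃ L : (ℝ × (Fin 3 → ℝ)) →L[ℝ] ℝ,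
      HasFDerivAt (fun q => WW κ g f j l e q c) L p ∧
      ∀ d : Fin 4, L (direction d) = WW κ g f j l (e + Pi.single d 1) p c := by
    intro c
    unfold WW
    by_cases h1 : c = j
    · obtain ⟨L, hL, hd⟩ := MM_hasFDerivAt (κ := κ) hg hf (e + Pi.single l.succ 1) p
      refine ⟨L, by simpa [h1] using hL, fun d => ?_⟩
      rw [hd d]
      simp only [h1, if_true]
      rw [add_right_comm]
    · by_cases h2 : c = l
      · obtain ⟨L, hL, hd⟩ := MM_hasFDerivAt (κ := -κ) hg hf (e + Pi.single j.succ 1) p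
        have h3 : ¬ l = j := by rwa [← h2]
        refine ⟨L, by simpa [h2, h3] using hL, fun d => ?_⟩
        rw [hd d]
        simp only [h2, h3, if_true, if_false]
        rw [add_right_comm]
      · refine ⟨0, by simpa [h1, h2] using hasFDerivAt_const (0:ℝ) p, fun d => ?_⟩
        simp [h1, h2]
  choose L hL hd using key
  refine ⟨ContinuousLinearMap.pi L, hasFDerivAt_pi.2 hL, fun d => ?_⟩
  funext c
  exact hd c d

theorem mixedDeriv_WW (hg : EffSeq g) (hf : ∀ i, EffSeq (f i)) (κ : ℝ) (j l : Fin 3)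
    (ds : List (Fin 4)) :
    mixedDeriv ds (WW κ g f j l 0) = WW κ g f j l (fun d => ds.count d) := by
  induction ds with
  | nil => rfl
  | cons d ds ih =>
    funext p
    show fderiv ℝ (mixedDeriv ds (WW κ g f j l 0)) p (direction d) = _
    rw [ih]
    obtain ⟨L, hL, hd⟩ := WW_hasFDerivAt hg hf κ j l (fun d => ds.count d) p
    rw [hL.fderiv, hd d]
    congr 1
    funext d'
    rw [List.count_cons, Pi.add_apply, Pi.single_apply]
    congr 1
    by_cases h : d' = d
    · simp [h]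
    · simp [h, Ne.symm h]

theorem WW_spaceDiv (hg : EffSeq g) (hf : ∀ i, EffSeq (f i)) (κ : ℝ) {j l : Fin 3} (hjl : j ≠ l)
    (p : ℝ × (Fin 3 → ℝ)) : spaceDiv (WW κ g f j l 0) p = 0 := by
  obtain ⟨L, hL, hd⟩ := WW_hasFDerivAt hg hf κ j l 0 p
  unfold spaceDiv
  rw [hL.fderiv]
  have h1 : ∀ c : Fin 3, ((0 : ℝ), (Pi.single c 1 : Fin 3 → ℝ)) = direction c.succ := by
    intro c
    simp [direction]
  simp only [h1, hd, WW, zero_add]
  rw [Finset.sum_ite, Finset.sum_ite]
  have e1 : (Finset.univ.filter fun c : Fin 3 => c = j) = {j} := by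
    ext c; simp
  have e2 : ((Finset.univ.filter fun c : Fin 3 => ¬ c = j).filter fun c => c = l) = {l} := by
    ext c; simp
    rintro rfl
    exact Ne.symm hjl
  rw [e1, e2]
  simp only [Finset.sum_singleton, Finset.sum_const_zero, add_zero]
  rw [add_comm (Pi.single l.succ 1) (Pi.single j.succ 1)]
  unfold MM
  ring

theorem WW_eff (hg : EffSeq g) (hf : ∀ i, EffSeq (f i)) (hκ : CompReal κ) (j l : Fin 3) :
    EffField (WW κ g f j l 0) where
  smooth := WW_contDiff hg hf κ j l 0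
  approx c := by
    simp only [mixedDeriv_WW hg hf, WW]
    split_ifs
    · refine (MM_ca hg hf hκ (Pi.single l.succ 1)).congr fun a => ?_
      rw [add_comm]
    · refine (MM_ca hg hf hκ.neg (Pi.single j.succ 1)).congr fun a => ?_
      rw [add_comm]
    · exact (CA.ofRat (Computable.const (0:ℚ))).congr (fun a => by simp)
  bound := by
    obtain ⟨B, hB, hb⟩ := MM_bound hg hf κ (Pi.single l.succ 1)
    obtain ⟨C, hC, hc⟩ := MM_bound hg hf (-κ) (Pi.single j.succ 1)
    refine ⟨fun ds => B ds + C ds, nat_add'.comp hB hC, fun ds p c => ?_⟩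
    rw [mixedDeriv_WW hg hf]
    unfold WW
    have h1 := hb ds p
    have h2 := hc ds p
    rw [add_comm] at h1 h2
    push_cast
    have h3 : (0:ℝ) ≤ B ds := Nat.cast_nonneg _
    have h4 : (0:ℝ) ≤ C ds := Nat.cast_nonneg _
    split_ifs
    · linarith
    · linarith
    · simp; linarith

end

end Crest.Agent.H2
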