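import Crest.Agent.H2.Config

/-! The combinatorial geometry: any two separated configurations with equal volumes are joined by a
path of elementary moves. -/

set_option autoImplicit false

namespace Crest.Agent.H2

open Crest.AnalysisR.BoxFlow Set

variable {n : ℕ}

theorem seq {P Q : Fin n → Bx} (σ : Equiv.Perm (Fin n)) (hP : Good P) (hQ : Good Q)
    (hs : ∀ i, Single (P i) (Q i))
    (h1 : ∀ i i', σ i' < σ i → CoSep (P i) (Q i) (Q i'))
    (h2 : ∀ i i', σ i < σ i' → CoSep (P i) (Q i) (P i')) : Path P Q := by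
  have key : ∀ k : ℕ, k ≤ n → Path P (fun i => if (σ i : ℕ) < k then Q i else P i) := by
    intro k
    induction k with
    | zero =>
      intro _
      simp only [Nat.not_lt_zero, if_false]
      exact Relation.ReflTransGen.refl
    | succ k ih =>
      intro hk
      refine Relation.ReflTransGen.tail (ih (by omega)) ⟨σ.symm ⟨k, hk⟩, ?_⟩
      set i0 := σ.symm ⟨k, hk⟩ with hi0
      have e0 : (σ i0 : ℕ) = k := by rw [hi0, Equiv.apply_symm_apply]
      have e1 : ¬ (σ i0 : ℕ) < k := by omega
      have e2 : (σ i0 : ℕ) < k + 1 := by omega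
      have e3 : ∀ i', i' ≠ i0 → (σ i' : ℕ) ≠ k := by
        intro i' h h'
        apply h
        apply σ.injective
        apply Fin.ext
        rw [h', e0]
      refine ⟨?_, ?_, ?_, ?_, ?_⟩
      · intro i' h
        have := e3 i' h
        by_cases h4 : (σ i' : ℕ) < k
        · rw [if_pos h4, if_pos (by omega)]
        · rw [if_neg h4, if_neg (by omega)]
      · rw [if_neg e1, if_pos e2]; exact hs _
      · rw [if_neg e1]; exact hP _
      · rw [if_pos e2]; exact hQ _
      · intro i' h
        have := e3 i' h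
        rw [if_neg e1, if_pos e2]
        by_cases h4 : (σ i' : ℕ) < k
        · rw [if_pos h4]
          exact h1 _ _ (by rw [Fin.lt_def]; omega)
        · rw [if_neg h4]
          exact h2 _ _ (by rw [Fin.lt_def]; omega)
  have := key n le_rfl
  simpa using this

theorem nat_dist {i i' : ℕ} (h : i ≠ i') : 1 ≤ |(i : ℚ) - i'| := by
  have h1 : (i : ℤ) - i' ≠ 0 := by omega
  have h2 : (1 : ℤ) ≤ |(i : ℤ) - i'| := Int.one_le_abs h1
  exact_mod_cast h2

theorem cosep_far {p q r : Bx} (m : Fin 3) {M D : ℚ} (hD : 2 * M < D) (hp : p.2 m ≤ M)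
    (hq : q.2 m ≤ M) (hr : r.2 m ≤ M) (hpq : p.1 m = q.1 m) (h : D ≤ |p.1 m - r.1 m|) :
    CoSep p q r := by
  refine ⟨m, ?_⟩
  rcases le_abs.1 h with h | h
  · right; rw [← hpq]; constructor <;> linarith
  · left; rw [← hpq]; constructor <;> linarith

theorem sep_of_disjoint {a h a' h' : Fin 3 → ℚ} (hh : ∀ m, 0 < h m) (hh' : ∀ m, 0 < h' m)
    (hd : Disjoint (box a h) (box a' h')) :
    ∃ m, a m + h m < a' m - h' m ∨ a' m + h' m < a m - h m := by
  by_contra hne
  push Not at hne
  have hd' := Set.disjoint_left.1 hd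
  refine @hd' (fun m => ((max (a m - h m) (a' m - h' m) : ℚ) : ℝ)) ?_ ?_
  · intro m
    have h1 := hne m
    have h2 := hh m
    have h3 : |max (a m - h m) (a' m - h' m) - a m| ≤ h m := by
      rw [abs_le]
      constructor
      · have := le_max_left (a m - h m) (a' m - h' m); linarith
      · have : max (a m - h m) (a' m - h' m) ≤ a m + h m := max_le (by linarith) h1.1
        linarith
    show |((max (a m - h m) (a' m - h' m) : ℚ) : ℝ) - (a m : ℝ)| ≤ (h m : ℝ)
    exact_mod_cast h3
  · intro m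
    have h1 := hne m
    have h2 := hh' m
    have h3 : |max (a m - h m) (a' m - h' m) - a' m| ≤ h' m := by
      rw [abs_le]
      constructor
      · have := le_max_right (a m - h m) (a' m - h' m); linarith
      · have : max (a m - h m) (a' m - h' m) ≤ a' m + h' m := max_le h1.2 (by linarith)
        linarith
    show |((max (a m - h m) (a' m - h' m) : ℚ) : ℝ) - (a' m : ℝ)| ≤ (h' m : ℝ)
    exact_mod_cast h3

/-- canonical configuration -/
def can (D : ℚ) (w : Fin n → Fin 3 → ℚ) : Fin n → Bx := fun i =>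
  (fun m => if m = 0 then (i : ℕ) * D else 0, w i)

theorem path_can (A : Fin n → Bx) (hA : Good A) {M D : ℚ} (hM : 0 ≤ M) (hD : 4 * M < D)
    (hc : ∀ i m, (A i).1 m ≤ M) (hw : ∀ i m, (A i).2 m ≤ M)
    (hd : Pairwise fun i i' => Disjoint (box (A i).1 (A i).2) (box (A i').1 (A i').2)) :
    Path A (can D fun i => (A i).2) := by
  have hD0 : 0 < D := by linarith
  -- the order: decreasing bottoms
  set f : Fin n → ℚ := fun i => -((A i).1 2 - (A i).2 2) with hf
  set σ : Equiv.Perm (Fin n) := (Tuple.sort f).symm with hσ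
  have hmono : ∀ i i', σ i < σ i' → (A i').1 2 - (A i').2 2 ≤ (A i).1 2 - (A i).2 2 := by
    intro i i' h
    have := Tuple.monotone_sort f h.le
    simp only [hσ, Function.comp, Equiv.apply_symm_apply, hf] at this
    linarith
  have hσdist : ∀ i i', i ≠ i' → 1 ≤ |((σ i : ℕ) : ℚ) - (σ i' : ℕ)| := by
    intro i i' h
    apply nat_dist
    intro h'
    exact h (σ.injective (Fin.ext h'))
  have hidist : ∀ i i' : Fin n, i ≠ i' → 1 ≤ |((i : ℕ) : ℚ) - (i' : ℕ)| := by
    intro i i' h
    apply nat_dist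
    intro h'
    exact h (Fin.ext h')
  set Z : Fin n → ℚ := fun i => ((n : ℚ) - (σ i : ℕ) + 1) * D with hZ
  have hZdist : ∀ i i', i ≠ i' → D ≤ |Z i - Z i'| := by
    intro i i' h
    have h1 := hσdist i' i (Ne.symm h)
    have : Z i - Z i' = (((σ i' : ℕ) : ℚ) - (σ i : ℕ)) * D := by simp only [hZ]; ring
    rw [this, abs_mul, abs_of_pos hD0]
    nlinarith
  have hXdist : ∀ i i' : Fin n, i ≠ i' → D ≤ |((i : ℕ) : ℚ) * D - (i' : ℕ) * D| := by
    intro i i' h
    have h1 := hidist i i' h
    rw [← sub_mul, abs_mul, abs_of_pos hD0]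
    nlinarith
  have hσn : ∀ i, ((σ i : ℕ) : ℚ) + 1 ≤ n := by
    intro i
    have := (σ i).isLt
    exact_mod_cast this
  have hZ2 : ∀ i, 2 * D ≤ Z i := by
    intro i
    have := hσn i
    simp only [hZ]
    nlinarith
  set Q1 : Fin n → Bx := fun i => (fun m => if m = 2 then Z i else (A i).1 m, (A i).2) with hQ1
  set Q2 : Fin n → Bx := fun i => (fun m => if m = 2 then Z i else if m = 0 then (i : ℕ) * D
    else (A i).1 m, (A i).2) with hQ2
  set Q3 : Fin n → Bx := fun i => (fun m => if m = 2 then Z i else if m = 0 then (i : ℕ) * D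
    else 0, (A i).2) with hQ3
  have g1 : Good Q1 := hA
  have g2 : Good Q2 := hA
  have g3 : Good Q3 := hA
  have g4 : Good (can D fun i => (A i).2) := hA
  have p1 : Path A Q1 := by
    refine seq σ hA g1 ?_ ?_ ?_
    · intro i
      left
      refine ⟨rfl, 2, fun m hm => ?_⟩
      simp only [hQ1, if_neg hm]
    · intro i i' h
      refine ⟨2, Or.inl ⟨?_, ?_⟩⟩
      · simp only [hQ1, if_true]
        have a1 := hc i 2
        have a2 := hw i 2
        have a3 := hw i' 2
        have a4 := hZ2 i'
        linarith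
      · simp only [hQ1, if_true]
        have a2 := hw i 2
        have a3 := hw i' 2
        have h5 : ((σ i' : ℕ) : ℚ) + 1 ≤ (σ i : ℕ) := by exact_mod_cast h
        have a4 : Z i + D ≤ Z i' := by
          simp only [hZ]
          nlinarith
        linarith
    · intro i i' h
      have hne : i ≠ i' := by rintro rfl; exact lt_irrefl _ h
      obtain ⟨m, hm⟩ := sep_of_disjoint (hA i) (hA i') (hd hne)
      by_cases h2 : m = 2
      · subst h2
        rcases hm with hm | hm
        · exfalso
          have a1 := hmono i i' h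
          have a2 := hA i 2
          linarith
        · refine ⟨2, Or.inr ⟨hm, ?_⟩⟩
          simp only [hQ1, if_true]
          have a1 := hc i' 2
          have a2 := hw i 2
          have a3 := hw i' 2
          have a4 := hZ2 i
          linarith
      · refine ⟨m, ?_⟩
        simp only [hQ1, if_neg h2]
        exact hm.imp (fun h => ⟨h, h⟩) (fun h => ⟨h, h⟩)
  have p2 : Path Q1 Q2 := by
    have key : ∀ i i', i ≠ i' → ∀ r : Bx, r.1 2 = Z i' → r.2 = (A i').2 → CoSep (Q1 i) (Q2 i) r := by
      intro i i' hne r hr hr'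
      refine cosep_far 2 (M := M) (D := D) (by linarith) (hw i 2) (hw i 2) (by rw [hr']; exact hw i' 2)
        (by simp [hQ1, hQ2]) ?_
      rw [hr]
      simpa [hQ1] using hZdist i i' hne
    refine seq 1 g1 g2 ?_ ?_ ?_
    · intro i
      left
      refine ⟨rfl, 0, fun m hm => ?_⟩
      simp only [hQ1, hQ2, if_neg hm]
    · intro i i' h
      exact key i i' (ne_of_gt h) _ (by simp [hQ2]) rfl
    · intro i i' h
      exact key i i' (ne_of_lt h) _ (by simp [hQ1]) rfl
  have p3 : Path Q2 Q3 := by
    have key : ∀ i i', i ≠ i' → ∀ r : Bx, r.1 2 = Z i' → r.2 = (A i').2 → CoSep (Q2 i) (Q3 i) r := by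
      intro i i' hne r hr hr'
      refine cosep_far 2 (M := M) (D := D) (by linarith) (hw i 2) (hw i 2) (by rw [hr']; exact hw i' 2)
        (by simp [hQ2, hQ3]) ?_
      rw [hr]
      simpa [hQ2] using hZdist i i' hne
    refine seq 1 g2 g3 ?_ ?_ ?_
    · intro i
      left
      refine ⟨rfl, 1, fun m hm => ?_⟩
      fin_cases m
      · simp [hQ2, hQ3]
      · exact absurd rfl hm
      · simp [hQ2, hQ3]
    · intro i i' h
      exact key i i' (ne_of_gt h) _ (by simp [hQ3]) rfl
    · intro i i' h
      exact key i i' (ne_of_lt h) _ (by simp [hQ2]) rfl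
  have p4 : Path Q3 (can D fun i => (A i).2) := by
    have key : ∀ i i' : Fin n, i ≠ i' → ∀ r : Bx, r.1 0 = (i' : ℕ) * D → r.2 = (A i').2 →
        CoSep (Q3 i) (can D (fun i => (A i).2) i) r := by
      intro i i' hne r hr hr'
      refine cosep_far 0 (M := M) (D := D) (by linarith) (hw i 0) (hw i 0) (by rw [hr']; exact hw i' 0)
        (by simp [can, hQ3]) ?_
      rw [hr]
      simpa [hQ3] using hXdist i i' hne
    refine seq 1 g3 g4 ?_ ?_ ?_
    · intro i
      left
      refine ⟨rfl, 2, fun m hm => ?_⟩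
      simp only [hQ3, can, if_neg hm]
    · intro i i' h
      exact key i i' (ne_of_gt h) _ (by simp [can]) rfl
    · intro i i' h
      exact key i i' (ne_of_lt h) _ (by simp [hQ3]) rfl
  exact ((p1.trans p2).trans p3).trans p4

theorem path_can_can (h k : Fin n → Fin 3 → ℚ) (hh : ∀ i j, 0 < h i j) (hk : ∀ i j, 0 < k i j)
    (hvol : ∀ i, ∏ j : Fin 3, k i j / h i j = 1) {M D : ℚ} (hM : 0 ≤ M) (hD : 4 * M < D)
    (hh' : ∀ i m, h i m ≤ M) (hk' : ∀ i m, k i m ≤ M) : Path (can D h) (can D k) := by
  have hD0 : 0 < D := by linarith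
  have hidist : ∀ i i' : Fin n, i ≠ i' → 1 ≤ |((i : ℕ) : ℚ) - (i' : ℕ)| := by
    intro i i' h
    apply nat_dist
    intro h'
    exact h (Fin.ext h')
  have hXdist : ∀ i i' : Fin n, i ≠ i' → D ≤ |((i : ℕ) : ℚ) * D - (i' : ℕ) * D| := by
    intro i i' h
    have h1 := hidist i i' h
    rw [← sub_mul, abs_mul, abs_of_pos hD0]
    nlinarith
  set w : Fin n → Fin 3 → ℚ := fun i => ![k i 0, h i 1, h i 0 * h i 2 / k i 0] with hw
  have hwp : ∀ i j, 0 < w i j := by
    intro i j
    fin_cases j
    · exact hk i 0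
    · exact hh i 1
    · exact div_pos (mul_pos (hh i 0) (hh i 2)) (hk i 0)
  have key : ∀ (u v : Fin n → Fin 3 → ℚ), (∀ i, u i 0 ≤ M) → (∀ i, v i 0 ≤ M) →
      (∀ i j, 0 < u i j) → (∀ i j, 0 < v i j) →
      (∀ i, Single (can D u i) (can D v i)) → Path (can D u) (can D v) := by
    intro u v hu hv hu0 hv0 hs
    refine seq 1 hu0 hv0 hs ?_ ?_
    · intro i i' hlt
      refine cosep_far 0 (M := M) (D := D) (by linarith) (hu i) (hv i) (hv i') rfl ?_
      simpa [can] using hXdist i i' (ne_of_gt hlt)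
    · intro i i' hlt
      refine cosep_far 0 (M := M) (D := D) (by linarith) (hu i) (hv i) (hu i') rfl ?_
      simpa [can] using hXdist i i' (ne_of_lt hlt)
  refine Path.trans (B := can D w) (key h w (fun i => hh' i 0) (fun i => hk' i 0) hh hwp ?_)
    (key w k (fun i => hk' i 0) (fun i => hk' i 0) hwp hk ?_)
  · intro i
    right
    refine ⟨rfl, 0, 2, by decide, ?_, ?_⟩
    · intro m h0 h2
      fin_cases m
      · exact absurd rfl h0
      · rfl
      · exact absurd rfl h2
    · show h i 0 * h i 2 = k i 0 * (h i 0 * h i 2 / k i 0)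
      have := (hk i 0).ne'
      field_simp
  · intro i
    right
    refine ⟨rfl, 1, 2, by decide, ?_, ?_⟩
    · intro m h0 h2
      fin_cases m
      · rfl
      · exact absurd rfl h0
      · exact absurd rfl h2
    · show h i 1 * (h i 0 * h i 2 / k i 0) = k i 1 * k i 2
      have hv := hvol i
      rw [Fin.prod_univ_three] at hv
      have a0 := (hk i 0).ne'
      have b0 := (hh i 0).ne'
      have b1 := (hh i 1).ne'
      have b2 := (hh i 2).ne'
      field_simp at hv ⊢
      linarith

theorem exists_path (a b h k : Fin n → Fin 3 → ℚ)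
    (hh : ∀ i j, 0 < h i j) (hk : ∀ i j, 0 < k i j)
    (ha : Pairwise fun i i' => Disjoint (box (a i) (h i)) (box (a i') (h i')))
    (hb : Pairwise fun i i' => Disjoint (box (b i) (k i)) (box (b i') (k i')))
    (hvol : ∀ i, ∏ j : Fin 3, k i j / h i j = 1) :
    Path (fun i => (a i, h i)) (fun i => (b i, k i)) := by
  obtain ⟨M, hM0, hM⟩ : ∃ M : ℚ, 0 ≤ M ∧ ∀ i m, a i m ≤ M ∧ b i m ≤ M ∧ h i m ≤ M ∧ k i m ≤ M := by
    refine ⟨∑ i, ∑ m, (|a i m| + |b i m| + |h i m| + |k i m|), by positivity, fun i m => ?_⟩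
    have h1 : |a i m| + |b i m| + |h i m| + |k i m| ≤
        ∑ i, ∑ m, (|a i m| + |b i m| + |h i m| + |k i m|) := by
      refine le_trans ?_ (Finset.single_le_sum
        (f := fun i => ∑ m, (|a i m| + |b i m| + |h i m| + |k i m|)) (fun i _ => by positivity)
        (Finset.mem_univ i))
      exact Finset.single_le_sum (f := fun m => (|a i m| + |b i m| + |h i m| + |k i m|))
        (fun i _ => by positivity) (Finset.mem_univ m)
    have n1 := abs_nonneg (a i m)
    have n2 := abs_nonneg (b i m)
    have n3 := abs_nonneg (h i m)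
    have n4 := abs_nonneg (k i m)
    have m1 := le_abs_self (a i m)
    have m2 := le_abs_self (b i m)
    have m3 := le_abs_self (h i m)
    have m4 := le_abs_self (k i m)
    refine ⟨?_, ?_, ?_, ?_⟩ <;> linarith
  have p1 := path_can (fun i => (a i, h i)) (fun i m => hh i m) (M := M) (D := 4 * M + 1) hM0
    (by linarith) (fun i m => (hM i m).1) (fun i m => (hM i m).2.2.1) ha
  have p2 := path_can (fun i => (b i, k i)) (fun i m => hk i m) (M := M) (D := 4 * M + 1) hM0
    (by linarith) (fun i m => (hM i m).2.1) (fun i m => (hM i m).2.2.2) hb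
  have p3 := path_can_can h k hh hk hvol (M := M) (D := 4 * M + 1) hM0 (by linarith)
    (fun i m => (hM i m).2.2.1) (fun i m => (hM i m).2.2.2)
  exact (p1.trans p3).trans p2.symm

end Crest.Agent.H2
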