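import Crest.Agent.H2.Move

/-! Local moves of a box with rational data: axis translations and planar rescalings. -/

set_option autoImplicit false

namespace Crest.Agent.H2

open Crest.AnalysisR.BoxFlow Set
open scoped ContDiff NNReal Topology

/-- centre and half widths -/
abbrev Bx := (Fin 3 → ℚ) × (Fin 3 → ℚ)

noncomputable def affMap (p q : Bx) (x : Fin 3 → ℝ) : Fin 3 → ℝ := fun m =>
  (q.1 m : ℝ) + ((q.2 m / p.2 m : ℚ) : ℝ) * (x m - (p.1 m : ℝ))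

def TransMove (p q : Bx) : Prop := p.2 = q.2 ∧ ∃ j, ∀ m, m ≠ j → p.1 m = q.1 m

def RescMove (p q : Bx) : Prop := p.1 = q.1 ∧ ∃ j l : Fin 3, j ≠ l ∧
  (∀ m, m ≠ j → m ≠ l → p.2 m = q.2 m) ∧ p.2 j * p.2 l = q.2 j * q.2 l

def Single (p q : Bx) : Prop := TransMove p q ∨ RescMove p q

theorem Single.symm {p q : Bx} (h : Single p q) : Single q p := by
  rcases h with ⟨h1, j, h2⟩ | ⟨h1, j, l, h2, h3, h4⟩
  · exact Or.inl ⟨h1.symm, j, fun m hm => (h2 m hm).symm⟩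
  · exact Or.inr ⟨h1.symm, j, l, h2, fun m hm hm' => (h3 m hm hm').symm, h4.symm⟩

def Traj (U : Field) (s t : ℚ) (x y : Fin 3 → ℝ) : Prop :=
  ∃ γ : ℝ → (Fin 3 → ℝ), (∀ τ, HasDerivAt γ (U (τ, γ τ)) τ) ∧ (∀ τ, τ ≤ (s : ℝ) → γ τ = x) ∧
    (∀ τ, (t : ℝ) ≤ τ → γ τ = y)

theorem local_trans (p q : Bx) (hp : ∀ m, 0 < p.2 m) (h : TransMove p q)
    (s t : ℚ) (hst : s < t) (η : ℚ) (hη : 0 < η) :
    ∃ U : Field, Nice U ∧ (∀ z, (z.1 ≤ (s : ℝ) ∨ (t : ℝ) ≤ z.1) → U z = 0) ∧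
      (∀ z : ℝ × (Fin 3 → ℝ), (∃ m, z.2 m ≤ ((min (p.1 m - p.2 m) (q.1 m - q.2 m) - η : ℚ) : ℝ) ∨
        ((max (p.1 m + p.2 m) (q.1 m + q.2 m) + η : ℚ) : ℝ) ≤ z.2 m) → U z = 0) ∧
      ∃ O : Set (Fin 3 → ℝ), IsOpen O ∧ box p.1 p.2 ⊆ O ∧
        ∀ x ∈ O, Traj U s t x (affMap p q x) := by
  obtain ⟨h1, j, h2⟩ := h
  obtain ⟨l, hl⟩ := exists_ne j
  set δ : ℚ := η / 2 with hδ
  have hδ0 : 0 < δ := by rw [hδ]; positivity
  have hδ0' : (0:ℝ) < (δ : ℝ) := by exact_mod_cast hδ0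
  obtain ⟨U, S, θ, hU, hS, hS0, hS1, hS01, ht, hv, hin⟩ := exists_field s t hst
    ((q.1 j - p.1 j : ℚ) : ℝ) (CompReal.ofRat _) j l hl.symm
    (fun m => min (p.1 m - p.2 m) (q.1 m - q.2 m) - δ)
    (fun m => max (p.1 m + p.2 m) (q.1 m + q.2 m) + δ) (fun _ => 0)
    (fun m => by
      have := hp m
      have a := min_le_left (p.1 m - p.2 m) (q.1 m - q.2 m)
      have b := le_max_left (p.1 m + p.2 m) (q.1 m + q.2 m)
      linarith) δ hδ0 false
  refine ⟨U, hU, ht, ?_, {x | ∀ m, |x m - (p.1 m : ℝ)| < (p.2 m : ℝ) + δ}, ?_, ?_, ?_⟩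
  · rintro z ⟨m, hm⟩
    apply hv
    refine ⟨m, ?_⟩
    rcases hm with hm | hm
    · left; push_cast at hm ⊢; rw [hδ]; push_cast; linarith
    · right; push_cast at hm ⊢; rw [hδ]; push_cast; linarith
  · simp only [ofPred_forall]
    apply isOpen_iInter_of_finite
    intro m
    exact isOpen_lt (by fun_prop) continuous_const
  · intro x hx m
    have := hx m
    linarith
  · intro x hx
    set γ : ℝ → (Fin 3 → ℝ) := fun τ m => x m + S τ * ((q.1 m : ℝ) - p.1 m) with hγ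
    have hreg : ∀ τ m, (((min (p.1 m - p.2 m) (q.1 m - q.2 m) - δ : ℚ)) : ℝ) ≤ γ τ m ∧
        γ τ m ≤ ((max (p.1 m + p.2 m) (q.1 m + q.2 m) + δ : ℚ) : ℝ) := by
      intro τ m
      have hm := hx m
      rw [abs_lt] at hm
      obtain ⟨hs0, hs1⟩ := hS01 τ
      have hw : (p.2 m : ℝ) = q.2 m := by rw [h1]
      push_cast
      simp only [hγ]
      constructor
      · have a1 : min ((p.1 m : ℝ) - p.2 m) (q.1 m - q.2 m) ≤ (p.1 m : ℝ) - p.2 m := min_le_left _ _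
        have a2 : min ((p.1 m : ℝ) - p.2 m) (q.1 m - q.2 m) ≤ (q.1 m : ℝ) - p.2 m := by
          rw [hw]; exact min_le_right _ _
        nlinarith [mul_le_mul_of_nonneg_left a1 (sub_nonneg.2 hs1), mul_le_mul_of_nonneg_left a2 hs0]
      · have a1 : (p.1 m : ℝ) + p.2 m ≤ max ((p.1 m : ℝ) + p.2 m) (q.1 m + q.2 m) := le_max_left _ _
        have a2 : (q.1 m : ℝ) + p.2 m ≤ max ((p.1 m : ℝ) + p.2 m) (q.1 m + q.2 m) := by
          rw [hw]; exact le_max_right _ _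
        nlinarith [mul_le_mul_of_nonneg_left a1 (sub_nonneg.2 hs1), mul_le_mul_of_nonneg_left a2 hs0]
    refine ⟨γ, fun τ => ?_, fun τ hτ => ?_, fun τ hτ => ?_⟩
    · rw [hin (τ, γ τ) (hreg τ), hasDerivAt_pi]
      intro m
      have hd : HasDerivAt (fun τ => γ τ m) (θ τ * ((q.1 m : ℝ) - p.1 m)) τ :=
        ((hS τ).mul_const _).const_add _
      refine hd.congr_deriv ?_
      by_cases hmj : m = j
      · simp [hmj]; ring
      · rw [if_neg hmj, h2 m hmj]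
        by_cases hml : m = l
        · simp [hml]
        · simp [hml]
    · funext m
      simp [hγ, hS0 τ hτ]
    · funext m
      simp only [hγ, hS1 τ hτ, affMap]
      rw [h1, div_self (by rw [← h1]; exact (hp m).ne')]
      push_cast; ring

theorem exp_mul_le {κ S : ℝ} (h0 : 0 ≤ S) (h1 : S ≤ 1) : Real.exp (κ * S) ≤ max 1 (Real.exp κ) := by
  rcases le_total 0 κ with h | h
  · apply le_max_of_le_right
    apply Real.exp_le_exp.2
    nlinarith
  · apply le_max_of_le_left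
    apply Real.exp_le_one_iff.2
    nlinarith

theorem local_resc (p q : Bx) (hp : ∀ m, 0 < p.2 m) (hq : ∀ m, 0 < q.2 m) (h : RescMove p q)
    (s t : ℚ) (hst : s < t) (η : ℚ) (hη : 0 < η) :
    ∃ U : Field, Nice U ∧ (∀ z, (z.1 ≤ (s : ℝ) ∨ (t : ℝ) ≤ z.1) → U z = 0) ∧
      (∀ z : ℝ × (Fin 3 → ℝ), (∃ m, z.2 m ≤ ((min (p.1 m - p.2 m) (q.1 m - q.2 m) - η : ℚ) : ℝ) ∨
        ((max (p.1 m + p.2 m) (q.1 m + q.2 m) + η : ℚ) : ℝ) ≤ z.2 m) → U z = 0) ∧
      ∃ O : Set (Fin 3 → ℝ), IsOpen O ∧ box p.1 p.2 ⊆ O ∧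
        ∀ x ∈ O, Traj U s t x (affMap p q x) := by
  obtain ⟨h1, j, l, hjl, h2, h3⟩ := h
  set δ : ℚ := η / 2 with hδ
  have hδ0 : 0 < δ := by rw [hδ]; positivity
  have hδ0' : (0:ℝ) < (δ : ℝ) := by exact_mod_cast hδ0
  have hρ : ∀ m, 0 < q.2 m / p.2 m := fun m => div_pos (hq m) (hp m)
  have hρ' : ∀ m, (0:ℝ) < ((q.2 m / p.2 m : ℚ) : ℝ) := fun m => by exact_mod_cast hρ m
  obtain ⟨U, S, θ, hU, hS, hS0, hS1, hS01, ht, hv, hin⟩ := exists_field s t hst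
    (Real.log ((q.2 j / p.2 j : ℚ) : ℝ)) (CompReal.log (hρ j)) j l hjl
    (fun m => min (p.1 m - p.2 m) (q.1 m - q.2 m) - δ)
    (fun m => max (p.1 m + p.2 m) (q.1 m + q.2 m) + δ) p.1
    (fun m => by
      have := hp m
      have a := min_le_left (p.1 m - p.2 m) (q.1 m - q.2 m)
      have b := le_max_left (p.1 m + p.2 m) (q.1 m + q.2 m)
      linarith) δ hδ0 true
  refine ⟨U, hU, ht, ?_, {x | ∀ m, |x m - (p.1 m : ℝ)| < (p.2 m : ℝ) + δ ∧
    ((q.2 m / p.2 m : ℚ) : ℝ) * |x m - (p.1 m : ℝ)| < (q.2 m : ℝ) + δ}, ?_, ?_, ?_⟩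
  · rintro z ⟨m, hm⟩
    apply hv
    refine ⟨m, ?_⟩
    rcases hm with hm | hm
    · left; push_cast at hm ⊢; rw [hδ]; push_cast; linarith
    · right; push_cast at hm ⊢; rw [hδ]; push_cast; linarith
  · simp only [ofPred_forall, ofPred_and]
    apply isOpen_iInter_of_finite
    intro m
    exact (isOpen_lt (by fun_prop) continuous_const).inter (isOpen_lt (by fun_prop) continuous_const)
  · intro x hx m
    have hxm := hx m
    refine ⟨by linarith, ?_⟩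
    have h5 : ((q.2 m / p.2 m : ℚ) : ℝ) * |x m - (p.1 m : ℝ)| ≤ ((q.2 m / p.2 m : ℚ) : ℝ) * (p.2 m : ℝ) :=
      mul_le_mul_of_nonneg_left hxm (hρ' m).le
    have h6 : ((q.2 m / p.2 m : ℚ) : ℝ) * (p.2 m : ℝ) = q.2 m := by
      rw [← Rat.cast_mul, div_mul_cancel₀ _ (hp m).ne']
    linarith
  · intro x hx
    set κ : Fin 3 → ℝ := fun m => Real.log ((q.2 m / p.2 m : ℚ) : ℝ) with hκ
    have hexp : ∀ m, Real.exp (κ m) = ((q.2 m / p.2 m : ℚ) : ℝ) := fun m => Real.exp_log (hρ' m)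
    have hκl : κ l = - κ j := by
      simp only [hκ]
      rw [← Real.log_inv]
      congr 1
      rw [← Rat.cast_inv]
      congr 1
      have a1 := (hp j).ne'
      have a2 := (hp l).ne'
      have a3 := (hq j).ne'
      field_simp
      linarith
    have hκo : ∀ m, m ≠ j → m ≠ l → κ m = 0 := by
      intro m hm hm'
      simp only [hκ]
      rw [h2 m hm hm', div_self (hq m).ne']
      simp
    set γ : ℝ → (Fin 3 → ℝ) := fun τ m => (p.1 m : ℝ) + Real.exp (κ m * S τ) * (x m - p.1 m) with hγ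
    have hreg : ∀ τ m, (((min (p.1 m - p.2 m) (q.1 m - q.2 m) - δ : ℚ)) : ℝ) ≤ γ τ m ∧
        γ τ m ≤ ((max (p.1 m + p.2 m) (q.1 m + q.2 m) + δ : ℚ) : ℝ) := by
      intro τ m
      obtain ⟨hm1, hm2⟩ := hx m
      obtain ⟨hs0, hs1⟩ := hS01 τ
      have hc : (p.1 m : ℝ) = q.1 m := by rw [h1]
      have hb : |Real.exp (κ m * S τ) * (x m - p.1 m)| ≤ max ((p.2 m : ℝ)) (q.2 m) + δ := by
        rw [abs_mul, abs_of_pos (Real.exp_pos _)]
        have h5 := mul_le_mul_of_nonneg_right (exp_mul_le (κ := κ m) hs0 hs1)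
          (abs_nonneg (x m - (p.1 m : ℝ)))
        refine h5.trans ?_
        rw [max_mul_of_nonneg _ _ (abs_nonneg _), one_mul, hexp]
        apply max_le
        · have := le_max_left (p.2 m : ℝ) (q.2 m); linarith
        · have := le_max_right (p.2 m : ℝ) (q.2 m); linarith
      rw [abs_le] at hb
      have e1 : min ((p.1 m : ℝ) - p.2 m) (q.1 m - q.2 m) = p.1 m - max (p.2 m : ℝ) (q.2 m) := by
        rw [← hc, min_sub_sub_left]
      have e2 : max ((p.1 m : ℝ) + p.2 m) (q.1 m + q.2 m) = p.1 m + max (p.2 m : ℝ) (q.2 m) := by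
        rw [← hc, max_add_add_left]
      push_cast
      rw [e1, e2]
      simp only [hγ]
      constructor
      · linarith [hb.1]
      · linarith [hb.2]
    refine ⟨γ, fun τ => ?_, fun τ hτ => ?_, fun τ hτ => ?_⟩
    · rw [hin (τ, γ τ) (hreg τ), hasDerivAt_pi]
      intro m
      have hd : HasDerivAt (fun τ => γ τ m)
          (Real.exp (κ m * S τ) * (κ m * θ τ) * (x m - p.1 m)) τ :=
        ((((hS τ).const_mul (κ m)).exp).mul_const _).const_add _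
      refine hd.congr_deriv ?_
      by_cases hmj : m = j
      · subst hmj
        simp only [if_true, hγ]; ring
      · rw [if_neg hmj]
        by_cases hml : m = l
        · subst hml
          have e : Real.log ((q.2 j / p.2 j : ℚ) : ℝ) = κ j := rfl
          simp only [if_true, hγ]
          rw [e, ← hκl]; ring
        · rw [if_neg hml, hκo m hmj hml]; ring
    · funext m
      simp [hγ, hS0 τ hτ]
    · funext m
      simp only [hγ, hS1 τ hτ, affMap, mul_one, hexp]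
      rw [h1]

theorem local_move (p q : Bx) (hp : ∀ m, 0 < p.2 m) (hq : ∀ m, 0 < q.2 m) (h : Single p q)
    (s t : ℚ) (hst : s < t) (η : ℚ) (hη : 0 < η) :
    ∃ U : Field, Nice U ∧ (∀ z, (z.1 ≤ (s : ℝ) ∨ (t : ℝ) ≤ z.1) → U z = 0) ∧
      (∀ z : ℝ × (Fin 3 → ℝ), (∃ m, z.2 m ≤ ((min (p.1 m - p.2 m) (q.1 m - q.2 m) - η : ℚ) : ℝ) ∨
        ((max (p.1 m + p.2 m) (q.1 m + q.2 m) + η : ℚ) : ℝ) ≤ z.2 m) → U z = 0) ∧
      ∃ O : Set (Fin 3 → ℝ), IsOpen O ∧ box p.1 p.2 ⊆ O ∧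
        ∀ x ∈ O, Traj U s t x (affMap p q x) := by
  rcases h with h | h
  · exact local_trans p q hp h s t hst η hη
  · exact local_resc p q hp hq h s t hst η hη

end Crest.Agent.H2
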