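import Crest.Agent.H2.FieldEff

/-! Elementary moves of a single box by a nice field. -/

set_option autoImplicit false

namespace Crest.Agent.H2

open Crest.AnalysisR.BoxFlow Set
open scoped ContDiff NNReal Topology

structure Nice (U : Field) : Prop where
  eff : EffField U
  supp : HasCompactSupport U
  div : ∀ p, spaceDiv U p = 0

theorem Nice.zero : Nice fun _ => 0 where
  eff := EffField.zero
  supp := HasCompactSupport.zero
  div p := by simp [spaceDiv]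

theorem Nice.add {U V : Field} (hU : Nice U) (hV : Nice V) : Nice fun p => U p + V p where
  eff := hU.eff.add hV.eff
  supp := hU.supp.add hV.supp
  div p := by
    have h1 := hU.eff.smooth.differentiable (by simp) p
    have h2 := hV.eff.smooth.differentiable (by simp) p
    unfold spaceDiv
    rw [fderiv_fun_add h1 h2]
    have h3 := hU.div p
    have h4 := hV.div p
    unfold spaceDiv at h3 h4
    simp only [ContinuousLinearMap.add_apply, Pi.add_apply]
    rw [Finset.sum_add_distrib, h3, h4, add_zero]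

theorem MM_eq_prod (κ : ℝ) (g : ℕ → ℝ → ℝ) (f : Fin 3 → ℕ → ℝ → ℝ) (e : Fin 4 → ℕ)
    (p : ℝ × (Fin 3 → ℝ)) :
    MM κ g f e p = κ * (g (e 0) p.1 * ∏ i : Fin 3, f i (e i.succ) (p.2 i)) := by
  unfold MM
  rw [Fin.prod_univ_three, mul_assoc (f 0 _ _)]
  rfl

theorem MM_single (κ : ℝ) (g : ℕ → ℝ → ℝ) (f : Fin 3 → ℕ → ℝ → ℝ) (l : Fin 3)
    (p : ℝ × (Fin 3 → ℝ)) :
    MM κ g f (0 + Pi.single l.succ 1) p
      = κ * (g 0 p.1 * ∏ i : Fin 3, f i (if i = l then 1 else 0) (p.2 i)) := by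
  rw [MM_eq_prod, zero_add]
  congr 2
  apply Finset.prod_congr rfl
  intro i _
  rw [Pi.single_apply]
  simp only [Fin.succ_inj]

/-- a field acting inside a region `[lo, hi]` expanded by `η` -/
theorem exists_field (s t : ℚ) (hst : s < t) (κ : ℝ) (hκ : CompReal κ) (j l : Fin 3) (hjl : j ≠ l)
    (lo hi c : Fin 3 → ℚ) (hlh : ∀ i, lo i ≤ hi i) (η : ℚ) (hη : 0 < η) (lin : Bool) :
    ∃ (U : Field) (S θ : ℝ → ℝ), Nice U ∧ (∀ τ, HasDerivAt S (θ τ) τ) ∧
      (∀ τ, τ ≤ (s : ℝ) → S τ = 0) ∧ (∀ τ, (t : ℝ) ≤ τ → S τ = 1) ∧ (∀ τ, 0 ≤ S τ ∧ S τ ≤ 1) ∧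
      (∀ p, (p.1 ≤ (s : ℝ) ∨ (t : ℝ) ≤ p.1) → U p = 0) ∧
      (∀ p : ℝ × (Fin 3 → ℝ), (∃ i, p.2 i ≤ (lo i : ℝ) - η ∨ (hi i : ℝ) + η ≤ p.2 i) → U p = 0) ∧
      (∀ p : ℝ × (Fin 3 → ℝ), (∀ i, (lo i : ℝ) ≤ p.2 i ∧ p.2 i ≤ hi i) → U p = fun i =>
        if i = j then κ * θ p.1 * (if lin then p.2 j - c j else 1)
        else if i = l then - κ * θ p.1 * (if lin then p.2 l - c l else 0)
        else 0) := by
  obtain ⟨S, θ, hθ, hS, hS0, hS1, hS01, hθ0⟩ := exists_time s t hst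
  have key : ∀ i : Fin 3, ∃ F : ℕ → ℝ → ℝ, EffSeq F ∧
      (∀ x : ℝ, (lo i : ℝ) ≤ x → x ≤ hi i →
        if (i = j ∧ lin = true) ∨ i = l then F 0 x = x - c i ∧ F 1 x = 1 else F 0 x = 1 ∧ F 1 x = 0) ∧
      (∀ x : ℝ, (x ≤ (lo i : ℝ) - η ∨ (hi i : ℝ) + η ≤ x) → F 0 x = 0 ∧ F 1 x = 0) := by
    intro i
    split_ifs
    · obtain ⟨F, h1, h2, h3⟩ := exists_linear (lo i) (hi i) η (c i) (hlh i) hη
      exact ⟨F, h1, h2, h3⟩
    · obtain ⟨F, h1, h2, h3⟩ := exists_plateau (lo i) (hi i) η (hlh i) hη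
      exact ⟨F, h1, h2, h3⟩
  choose f hf hf1 hf2 using key
  have van : ∀ (κ' : ℝ) (m : Fin 3) (p : ℝ × (Fin 3 → ℝ)),
      (∃ i, p.2 i ≤ (lo i : ℝ) - η ∨ (hi i : ℝ) + η ≤ p.2 i) →
      MM κ' θ f (0 + Pi.single m.succ 1) p = 0 := by
    intro κ' m p ⟨i, hi'⟩
    rw [MM_single, Finset.prod_eq_zero (Finset.mem_univ i), mul_zero, mul_zero]
    have := hf2 i (p.2 i) hi'
    split_ifs
    · exact this.2
    · exact this.1
  have van' : ∀ (κ' : ℝ) (m : Fin 3) (p : ℝ × (Fin 3 → ℝ)), (p.1 ≤ (s : ℝ) ∨ (t : ℝ) ≤ p.1) →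
      MM κ' θ f (0 + Pi.single m.succ 1) p = 0 := by
    intro κ' m p hp
    rw [MM_single, hθ0 _ hp, zero_mul, mul_zero]
  have vanU : ∀ p : ℝ × (Fin 3 → ℝ), (∃ i, p.2 i ≤ (lo i : ℝ) - η ∨ (hi i : ℝ) + η ≤ p.2 i) →
      WW κ θ f j l 0 p = 0 := by
    intro p hp
    funext m
    unfold WW
    split_ifs
    · exact van _ _ _ hp
    · exact van _ _ _ hp
    · rfl
  have vanU' : ∀ p : ℝ × (Fin 3 → ℝ), (p.1 ≤ (s : ℝ) ∨ (t : ℝ) ≤ p.1) → WW κ θ f j l 0 p = 0 := by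
    intro p hp
    funext m
    unfold WW
    split_ifs
    · exact van' _ _ _ hp
    · exact van' _ _ _ hp
    · rfl
  refine ⟨WW κ θ f j l 0, S, θ 0, ⟨WW_eff hθ hf hκ j l, ?_, WW_spaceDiv hθ hf κ hjl⟩, hS, hS0, hS1,
    hS01, vanU', vanU, ?_⟩
  · refine HasCompactSupport.intro (K := Icc ((s : ℝ), fun i => (lo i : ℝ) - η)
      ((t : ℝ), fun i => (hi i : ℝ) + η)) isCompact_Icc ?_
    intro p hp
    by_contra hne
    apply hp
    have h1 : ¬ (p.1 ≤ (s : ℝ) ∨ (t : ℝ) ≤ p.1) := fun h => hne (vanU' p h)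
    have h2 : ¬ (∃ i, p.2 i ≤ (lo i : ℝ) - η ∨ (hi i : ℝ) + η ≤ p.2 i) := fun h => hne (vanU p h)
    push Not at h1 h2
    exact ⟨⟨h1.1.le, fun i => (h2 i).1.le⟩, ⟨h1.2.le, fun i => (h2 i).2.le⟩⟩
  · intro p hp
    have hv : ∀ i, if (i = j ∧ lin = true) ∨ i = l then f i 0 (p.2 i) = p.2 i - c i ∧ f i 1 (p.2 i) = 1
        else f i 0 (p.2 i) = 1 ∧ f i 1 (p.2 i) = 0 := fun i => hf1 i (p.2 i) (hp i).1 (hp i).2
    have hvl : f l 0 (p.2 l) = p.2 l - c l ∧ f l 1 (p.2 l) = 1 := by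
      have := hv l
      rwa [if_pos (Or.inr rfl)] at this
    have hvo : ∀ i, i ≠ j → i ≠ l → f i 0 (p.2 i) = 1 ∧ f i 1 (p.2 i) = 0 := by
      intro i h1 h2
      have := hv i
      rwa [if_neg (by rintro (h | h); exacts [h1 h.1, h2 h])] at this
    funext m
    unfold WW
    split_ifs with h1 h2 h3 h4
    · -- m = j, lin
      rw [MM_single, Finset.prod_eq_single j]
      · rw [if_neg hjl]
        have := hv j
        rw [if_pos (Or.inl ⟨rfl, h2⟩)] at this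
        rw [this.1]; ring
      · intro i _ hij
        split_ifs with h5
        · rw [h5]; exact hvl.2
        · exact (hvo i hij h5).1
      · intro h; exact absurd (Finset.mem_univ _) h
    · -- m = j, not lin
      rw [MM_single, Finset.prod_eq_one]
      · ring
      · intro i _
        split_ifs with h5
        · rw [h5]; exact hvl.2
        · by_cases hij : i = j
          · have := hv j
            rw [if_neg (by rintro (h | h); exacts [h2 h.2, hjl h])] at this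
            rw [hij]; exact this.1
          · exact (hvo i hij h5).1
    · -- m = l, lin
      rw [MM_single, Finset.prod_eq_single l]
      · rw [if_neg (Ne.symm hjl), hvl.1]; ring
      · intro i _ hil
        split_ifs with h5
        · have := hv j
          rw [if_pos (Or.inl ⟨rfl, h4⟩)] at this
          rw [h5]; exact this.2
        · exact (hvo i h5 hil).1
      · intro h; exact absurd (Finset.mem_univ _) h
    · rw [MM_single, Finset.prod_eq_zero (Finset.mem_univ j)]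
      · ring
      · rw [if_pos rfl]
        have := hv j
        rw [if_neg (by rintro (h | h); exacts [h4 h.2, hjl h])] at this
        exact this.2
    · rfl

end Crest.Agent.H2
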