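import Mathlib

/-! Computability of the arithmetic of rational numbers with respect to the
`Primcodable ℚ` structure of Mathlib. -/

set_option autoImplicit false

namespace Crest.Agent.H2.RatComp

open Encodable Denumerable

/-- the original encoding of a rational number -/
def c0 (q : ℚ) : ℕ := @Encodable.encode ℚ Rat.instEncodable q

theorem c0_eq (q : ℚ) : c0 q = Nat.pair (Encodable.encode q.num) q.den := by
  rfl

theorem encode_int_ofNat (n : ℕ) : Encodable.encode (n : ℤ) = 2 * n := rfl
theorem encode_int_negSucc (n : ℕ) : Encodable.encode (Int.negSucc n) = 2 * n + 1 := rfl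

theorem natAbs_eq_encode (z : ℤ) : z.natAbs = (Encodable.encode z + 1) / 2 := by
  cases z with
  | ofNat n =>
    show n = (Encodable.encode (n : ℤ) + 1) / 2
    rw [encode_int_ofNat]; omega
  | negSucc n =>
    show n + 1 = (Encodable.encode (Int.negSucc n) + 1) / 2
    rw [encode_int_negSucc]; omega

theorem toNat_eq_encode (z : ℤ) :
    z.toNat = if (Encodable.encode z) % 2 = 0 then (Encodable.encode z) / 2 else 0 := by
  cases z with
  | ofNat n =>
    show n = _
    have : Encodable.encode (Int.ofNat n) = 2 * n := encode_int_ofNat n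
    rw [this]; simp
  | negSucc n =>
    show 0 = _
    rw [encode_int_negSucc]
    simp [Nat.add_mod]

theorem neg_toNat_eq_encode (z : ℤ) :
    (-z).toNat = if (Encodable.encode z) % 2 = 0 then 0 else (Encodable.encode z + 1) / 2 := by
  cases z with
  | ofNat n =>
    have : Encodable.encode (Int.ofNat n) = 2 * n := encode_int_ofNat n
    rw [this]; simp
  | negSucc n =>
    show n + 1 = _
    rw [encode_int_negSucc]
    have : (2 * n + 1) % 2 ≠ 0 := by omega
    rw [if_neg this]; omega

/-- predicate of being a code -/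
def IsCode (m : ℕ) : Prop := m.unpair.2 ≠ 0 ∧ Nat.Coprime ((m.unpair.1 + 1) / 2) m.unpair.2

theorem mem_range_c0 (m : ℕ) : m ∈ Set.range c0 ↔ IsCode m := by
  constructor
  · rintro ⟨q, rfl⟩
    refine ⟨?_, ?_⟩
    · rw [c0_eq]; simp [q.den_nz]
    · rw [c0_eq]
      simp only [Nat.unpair_pair]
      rw [← natAbs_eq_encode]
      exact q.reduced
  · rintro ⟨h1, h2⟩
    obtain ⟨z, hz⟩ : ∃ z : ℤ, Encodable.encode z = m.unpair.1 :=
      ⟨Denumerable.ofNat ℤ m.unpair.1, Denumerable.encode_ofNat _⟩
    refine ⟨⟨z, m.unpair.2, h1, ?_⟩, ?_⟩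
    · rw [natAbs_eq_encode, hz]; exact h2
    · rw [c0_eq]
      simp [hz]

/-- coprimality as a bounded statement -/
theorem coprime_iff_bdd (a b : ℕ) (hb : b ≠ 0) :
    Nat.Coprime a b ↔ ∀ k < b + 1, ¬ (a % k = 0 ∧ b % k = 0 ∧ k ≠ 1) := by
  constructor
  · intro h k _ ⟨h1, h2, h3⟩
    exact h3 (Nat.Coprime.eq_one_of_dvd (Nat.Coprime.coprime_dvd_left (Nat.dvd_of_mod_eq_zero h1) h)
      (Nat.dvd_of_mod_eq_zero h2))
  · intro h
    by_contra hne
    have hg : Nat.gcd a b ≠ 1 := hne
    refine h (Nat.gcd a b) ?_ ⟨?_, ?_, hg⟩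
    · exact Nat.lt_succ_of_le (Nat.le_of_dvd (Nat.pos_of_ne_zero hb) (Nat.gcd_dvd_right a b))
    · exact Nat.mod_eq_zero_of_dvd (Nat.gcd_dvd_left a b)
    · exact Nat.mod_eq_zero_of_dvd (Nat.gcd_dvd_right a b)

theorem primrec_isCode : PrimrecPred IsCode := by
  have hk : PrimrecRel fun (k : ℕ) (m : ℕ) =>
      ¬ (((m.unpair.1 + 1) / 2) % k = 0 ∧ m.unpair.2 % k = 0 ∧ k ≠ 1) := by
    have u1 : Primrec fun p : ℕ × ℕ => p.2.unpair.1 := Primrec.fst.comp (Primrec.unpair.comp Primrec.snd)
    have u2 : Primrec fun p : ℕ × ℕ => p.2.unpair.2 := Primrec.snd.comp (Primrec.unpair.comp Primrec.snd)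
    have e1 : PrimrecPred fun p : ℕ × ℕ => ((p.2.unpair.1 + 1) / 2) % p.1 = 0 :=
      Primrec.eq.comp (Primrec.nat_mod.comp (Primrec.nat_div.comp (Primrec.succ.comp u1) (Primrec.const 2))
        Primrec.fst) (Primrec.const 0)
    have e2 : PrimrecPred fun p : ℕ × ℕ => p.2.unpair.2 % p.1 = 0 :=
      Primrec.eq.comp (Primrec.nat_mod.comp u2 Primrec.fst) (Primrec.const 0)
    have e3 : PrimrecPred fun p : ℕ × ℕ => p.1 ≠ 1 :=
      (Primrec.eq.comp Primrec.fst (Primrec.const 1)).not
    exact ((e1.and (e2.and e3)).not)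
  have hall := hk.forall_lt
  have hall' : PrimrecPred fun m : ℕ => ∀ k < m.unpair.2 + 1,
      ¬ (((m.unpair.1 + 1) / 2) % k = 0 ∧ m.unpair.2 % k = 0 ∧ k ≠ 1) :=
    hall.comp (Primrec.succ.comp (Primrec.snd.comp Primrec.unpair)) Primrec.id
  have hne : PrimrecPred fun m : ℕ => m.unpair.2 ≠ 0 :=
    (Primrec.eq.comp (Primrec.snd.comp Primrec.unpair) (Primrec.const 0)).not
  refine (hne.and hall').of_eq ?_
  intro m
  constructor
  · rintro ⟨h1, h2⟩
    exact ⟨h1, (coprime_iff_bdd _ _ h1).2 h2⟩
  · rintro ⟨h1, h2⟩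
    exact ⟨h1, (coprime_iff_bdd _ _ h1).1 h2⟩

/-- the `n`-th code -/
noncomputable def nthCode (n : ℕ) : ℕ := c0 (Denumerable.ofNat ℚ n)

attribute [local instance] Encodable.decidableRangeEncode

local instance infRange : Infinite (Set.range (@Encodable.encode ℚ Rat.instEncodable)) :=
  Infinite.of_injective _ (Equiv.ofInjective _ Encodable.encode_injective).injective

theorem nthCode_eq (n : ℕ) :
    nthCode n = (Nat.Subtype.ofNat (Set.range (@Encodable.encode ℚ Rat.instEncodable)) n : ℕ) := by
  unfold nthCode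
  have h : Denumerable.ofNat ℚ n = (Encodable.equivRangeEncode ℚ).symm
      (Nat.Subtype.ofNat (Set.range (@Encodable.encode ℚ Rat.instEncodable)) n) := by
    let _ := Nat.Subtype.denumerable (Set.range (@Encodable.encode ℚ Rat.instEncodable))
    show @Denumerable.ofNat ℚ (Denumerable.ofEquiv (Set.range (@encode ℚ _))
      (equivRangeEncode ℚ)) n = _
    rw [Denumerable.ofEquiv_ofNat]
    congr 1
  rw [h]
  have h2 := (Encodable.equivRangeEncode ℚ).apply_symm_apply
      (Nat.Subtype.ofNat (Set.range (@Encodable.encode ℚ Rat.instEncodable)) n)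
  have h3 := congrArg Subtype.val h2
  exact h3

theorem nthCode_strictMono : StrictMono nthCode := by
  apply strictMono_nat_of_lt_succ
  intro n
  rw [nthCode_eq, nthCode_eq]
  exact Nat.Subtype.lt_succ_self _

theorem nthCode_isCode (n : ℕ) : IsCode (nthCode n) :=
  (mem_range_c0 _).1 ⟨_, rfl⟩

theorem exists_nthCode {m : ℕ} (hm : IsCode m) : ∃ n, nthCode n = m := by
  obtain ⟨q, rfl⟩ := (mem_range_c0 m).2 hm
  exact ⟨@Encodable.encode ℚ Denumerable.toEncodable q, congrArg c0 (Denumerable.ofNat_encode q)⟩

open Classical in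
theorem count_nthCode (n : ℕ) : Nat.count IsCode (nthCode n) = n := by
  rw [Nat.count_eq_card_filter_range]
  have : (Finset.range (nthCode n)).filter IsCode = (Finset.range n).image nthCode := by
    ext m
    simp only [Finset.mem_filter, Finset.mem_range, Finset.mem_image]
    constructor
    · rintro ⟨h1, h2⟩
      obtain ⟨k, rfl⟩ := exists_nthCode h2
      exact ⟨k, nthCode_strictMono.lt_iff_lt.1 h1, rfl⟩
    · rintro ⟨k, hk, rfl⟩
      exact ⟨nthCode_strictMono hk, nthCode_isCode k⟩
  rw [this, Finset.card_image_of_injective _ nthCode_strictMono.injective, Finset.card_range]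

open Classical in
theorem isCode_and_count_iff (n m : ℕ) :
    (IsCode m ∧ Nat.count IsCode m = n) ↔ m = nthCode n := by
  constructor
  · rintro ⟨h1, h2⟩
    obtain ⟨k, rfl⟩ := exists_nthCode h1
    rw [count_nthCode] at h2
    rw [h2]
  · rintro rfl
    exact ⟨nthCode_isCode n, count_nthCode n⟩

open Classical in
theorem primrec_count : Primrec (Nat.count IsCode) := by
  have h1 : Primrec₂ fun (n : ℕ) (k : ℕ) => k + if IsCode n then 1 else 0 :=
    Primrec.nat_add.comp Primrec.snd
      (Primrec.ite (primrec_isCode.comp Primrec.fst) (Primrec.const 1) (Primrec.const 0))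
  refine (Primrec.nat_rec₁ 0 h1).of_eq ?_
  intro n
  induction n with
  | zero => simp
  | succ n ih =>
    rw [Nat.count_succ, ← ih]

theorem computable_nthCode : Computable nthCode := by
  classical
  have h1 : PrimrecRel fun (n m : ℕ) => IsCode m ∧ Nat.count IsCode m = n := by
    have a1 : PrimrecPred fun p : ℕ × ℕ => IsCode p.2 := primrec_isCode.comp Primrec.snd
    have a2 : PrimrecPred fun p : ℕ × ℕ => Nat.count IsCode p.2 = p.1 :=
      Primrec.eq.comp (primrec_count.comp Primrec.snd) Primrec.fst
    exact a1.and a2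
  have h2 : Partrec₂ fun (n m : ℕ) => (Part.some (decide (IsCode m ∧ Nat.count IsCode m = n)) : Part Bool) :=
    (h1.decide.to_comp).partrec₂
  refine (Partrec.rfind h2).of_eq_tot ?_
  intro n
  refine Nat.mem_rfind.2 ⟨?_, ?_⟩
  · refine Part.mem_some_iff.2 ?_
    exact (decide_eq_true ((isCode_and_count_iff n _).2 rfl)).symm
  · intro m hm
    refine Part.mem_some_iff.2 ?_
    symm
    apply decide_eq_false
    intro h
    have := (isCode_and_count_iff n m).1 h
    omega

theorem computable_c0 : Computable c0 := by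
  refine (computable_nthCode.comp Computable.encode).of_eq ?_
  intro q
  exact congrArg c0 (Denumerable.ofNat_encode q)

/-- positive part of the numerator -/
def posNum (q : ℚ) : ℕ := q.num.toNat
/-- negative part of the numerator -/
def negNum (q : ℚ) : ℕ := (-q.num).toNat

theorem computable_den : Computable (fun q : ℚ => q.den) := by
  refine (Computable.snd.comp (Computable.unpair.comp computable_c0)).of_eq ?_
  intro q
  rw [c0_eq]; simp

theorem computable_encNum : Computable (fun q : ℚ => Encodable.encode q.num) := by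
  refine (Computable.fst.comp (Computable.unpair.comp computable_c0)).of_eq ?_
  intro q
  rw [c0_eq]; simp

theorem computable_posNum : Computable posNum := by
  have h : Primrec fun m : ℕ => if m % 2 = 0 then m / 2 else 0 :=
    Primrec.ite (Primrec.eq.comp (Primrec.nat_mod.comp Primrec.id (Primrec.const 2)) (Primrec.const 0))
      (Primrec.nat_div.comp Primrec.id (Primrec.const 2)) (Primrec.const 0)
  refine (h.to_comp.comp computable_encNum).of_eq ?_
  intro q
  exact (toNat_eq_encode q.num).symm

theorem computable_negNum : Computable negNum := by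
  have h : Primrec fun m : ℕ => if m % 2 = 0 then 0 else (m + 1) / 2 :=
    Primrec.ite (Primrec.eq.comp (Primrec.nat_mod.comp Primrec.id (Primrec.const 2)) (Primrec.const 0))
      (Primrec.const 0) (Primrec.nat_div.comp (Primrec.succ.comp Primrec.id) (Primrec.const 2))
  refine (h.to_comp.comp computable_encNum).of_eq ?_
  intro q
  exact (neg_toNat_eq_encode q.num).symm

theorem posNum_sub_negNum (q : ℚ) : (posNum q : ℚ) - (negNum q : ℚ) = q.num := by
  have h : (posNum q : ℤ) - (negNum q : ℤ) = q.num := by
    unfold posNum negNum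
    omega
  have h2 := congrArg (fun z : ℤ => (z : ℚ)) h
  simpa using h2

theorem eq_div_iff_nat (q : ℚ) (a b d : ℕ) (hd : d ≠ 0) :
    q = ((a : ℚ) - b) / d ↔ a * q.den + negNum q * d = b * q.den + posNum q * d := by
  have hd' : (d : ℚ) ≠ 0 := by exact_mod_cast hd
  have hden : (q.den : ℚ) ≠ 0 := by exact_mod_cast q.den_nz
  have hq : q * q.den = (posNum q : ℚ) - negNum q := by
    rw [posNum_sub_negNum]; exact Rat.mul_den_eq_num q
  rw [eq_div_iff hd']
  constructor
  · intro h
    have : ((a * q.den + negNum q * d : ℕ) : ℚ) = ((b * q.den + posNum q * d : ℕ) : ℚ) := by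
      push_cast
      linear_combination (-(q.den : ℚ)) * h + (d : ℚ) * hq
    exact_mod_cast this
  · intro h
    have h' : ((a * q.den + negNum q * d : ℕ) : ℚ) = ((b * q.den + posNum q * d : ℕ) : ℚ) := by
      exact_mod_cast h
    push_cast at h'
    apply mul_right_cancel₀ hden
    linear_combination (-1 : ℚ) * h' + (d : ℚ) * hq

/-- the rational number `(a - b) / d` -/
def mkQ (p : ℕ × ℕ × ℕ) : ℚ := ((p.1 : ℚ) - (p.2.1 : ℚ)) / (p.2.2 : ℚ)

theorem computable_mkQ : Computable mkQ := by
  classical
  have hq : Computable fun z : (ℕ × ℕ × ℕ) × ℕ => Denumerable.ofNat ℚ z.2 :=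
    (Computable.ofNat ℚ).comp Computable.snd
  have hden : Computable fun z : (ℕ × ℕ × ℕ) × ℕ => (Denumerable.ofNat ℚ z.2).den :=
    computable_den.comp hq
  have hpos : Computable fun z : (ℕ × ℕ × ℕ) × ℕ => posNum (Denumerable.ofNat ℚ z.2) :=
    computable_posNum.comp hq
  have hneg : Computable fun z : (ℕ × ℕ × ℕ) × ℕ => negNum (Denumerable.ofNat ℚ z.2) :=
    computable_negNum.comp hq
  have ha : Computable fun z : (ℕ × ℕ × ℕ) × ℕ => z.1.1 := Computable.fst.comp Computable.fst
  have hb : Computable fun z : (ℕ × ℕ × ℕ) × ℕ => z.1.2.1 :=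
    Computable.fst.comp (Computable.snd.comp Computable.fst)
  have hd : Computable fun z : (ℕ × ℕ × ℕ) × ℕ => z.1.2.2 :=
    Computable.snd.comp (Computable.snd.comp Computable.fst)
  have mul : Computable₂ ((· * ·) : ℕ → ℕ → ℕ) := Primrec.nat_mul.to_comp
  have add : Computable₂ ((· + ·) : ℕ → ℕ → ℕ) := Primrec.nat_add.to_comp
  have eqn : Computable₂ (fun a b : ℕ => decide (a = b)) := (Primrec.eq (α := ℕ)).decide.to_comp
  have or : Computable₂ Bool.or := Primrec.or.to_comp
  have and : Computable₂ Bool.and := Primrec.and.to_comp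
  have e1 : Computable fun z : (ℕ × ℕ × ℕ) × ℕ =>
      decide (z.1.1 * (Denumerable.ofNat ℚ z.2).den + negNum (Denumerable.ofNat ℚ z.2) * z.1.2.2
        = z.1.2.1 * (Denumerable.ofNat ℚ z.2).den + posNum (Denumerable.ofNat ℚ z.2) * z.1.2.2) :=
    eqn.comp (add.comp (mul.comp ha hden) (mul.comp hneg hd))
      (add.comp (mul.comp hb hden) (mul.comp hpos hd))
  have e2 : Computable fun z : (ℕ × ℕ × ℕ) × ℕ => decide (z.1.2.2 = 0) :=
    eqn.comp hd (Computable.const 0)
  have e3 : Computable fun z : (ℕ × ℕ × ℕ) × ℕ => decide (posNum (Denumerable.ofNat ℚ z.2) = 0) :=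
    eqn.comp hpos (Computable.const 0)
  have e4 : Computable fun z : (ℕ × ℕ × ℕ) × ℕ => decide (negNum (Denumerable.ofNat ℚ z.2) = 0) :=
    eqn.comp hneg (Computable.const 0)
  have hP : Computable fun z : (ℕ × ℕ × ℕ) × ℕ =>
      cond (decide (z.1.2.2 = 0))
        (Bool.and (decide (posNum (Denumerable.ofNat ℚ z.2) = 0))
          (decide (negNum (Denumerable.ofNat ℚ z.2) = 0)))
        (decide (z.1.1 * (Denumerable.ofNat ℚ z.2).den + negNum (Denumerable.ofNat ℚ z.2) * z.1.2.2
        = z.1.2.1 * (Denumerable.ofNat ℚ z.2).den + posNum (Denumerable.ofNat ℚ z.2) * z.1.2.2)) :=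
    Computable.cond e2 (and.comp e3 e4) e1
  have key : ∀ (p : ℕ × ℕ × ℕ) (i : ℕ),
      (cond (decide (p.2.2 = 0))
        (Bool.and (decide (posNum (Denumerable.ofNat ℚ i) = 0))
          (decide (negNum (Denumerable.ofNat ℚ i) = 0)))
        (decide (p.1 * (Denumerable.ofNat ℚ i).den + negNum (Denumerable.ofNat ℚ i) * p.2.2
        = p.2.1 * (Denumerable.ofNat ℚ i).den + posNum (Denumerable.ofNat ℚ i) * p.2.2)) = true)
      ↔ Denumerable.ofNat ℚ i = mkQ p := by
    intro p i
    by_cases h0 : p.2.2 = 0
    · simp only [h0, decide_true, cond_true, Bool.and_eq_true, decide_eq_true_eq]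
      unfold mkQ
      rw [h0]
      simp only [Nat.cast_zero, div_zero]
      constructor
      · rintro ⟨h1, h2⟩
        have := posNum_sub_negNum (Denumerable.ofNat ℚ i)
        rw [h1, h2] at this
        simp only [Nat.cast_zero, sub_zero] at this
        have h3 : (Denumerable.ofNat ℚ i).num = 0 := by exact_mod_cast this.symm
        exact Rat.num_eq_zero.1 h3
      · intro h
        rw [h]
        exact ⟨rfl, rfl⟩
    · simp only [h0, decide_false, cond_false, decide_eq_true_eq]
      exact (eq_div_iff_nat _ _ _ _ h0).symm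
  have h2 : Partrec₂ fun (p : ℕ × ℕ × ℕ) (i : ℕ) => (Part.some
      (cond (decide (p.2.2 = 0))
        (Bool.and (decide (posNum (Denumerable.ofNat ℚ i) = 0))
          (decide (negNum (Denumerable.ofNat ℚ i) = 0)))
        (decide (p.1 * (Denumerable.ofNat ℚ i).den + negNum (Denumerable.ofNat ℚ i) * p.2.2
        = p.2.1 * (Denumerable.ofNat ℚ i).den + posNum (Denumerable.ofNat ℚ i) * p.2.2))) : Part Bool) :=
    hP.to₂.partrec₂
  have h3 : Computable fun p => @Encodable.encode ℚ Denumerable.toEncodable (mkQ p) := by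
    refine (Partrec.rfind h2).of_eq_tot ?_
    intro p
    refine Nat.mem_rfind.2 ⟨?_, ?_⟩
    · refine Part.mem_some_iff.2 ?_
      exact ((key p _).2 (Denumerable.ofNat_encode _)).symm
    · intro m hm
      refine Part.mem_some_iff.2 ?_
      symm
      rw [Bool.eq_false_iff]
      intro h
      have h4 := (key p m).1 h
      have h5 : m = @Encodable.encode ℚ Denumerable.toEncodable (mkQ p) := by
        rw [← h4, Denumerable.encode_ofNat]
      omega
  exact Computable.encode_iff.1 h3

theorem rat_repr (q : ℚ) : q = ((posNum q : ℚ) - negNum q) / q.den := by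
  rw [posNum_sub_negNum]; exact (Rat.num_div_den q).symm

section arith

theorem nat_add' : Computable₂ ((· + ·) : ℕ → ℕ → ℕ) := Primrec.nat_add.to_comp
theorem nat_mul' : Computable₂ ((· * ·) : ℕ → ℕ → ℕ) := Primrec.nat_mul.to_comp
theorem nat_sub' : Computable₂ ((· - ·) : ℕ → ℕ → ℕ) := Primrec.nat_sub.to_comp
theorem nat_div' : Computable₂ ((· / ·) : ℕ → ℕ → ℕ) := Primrec.nat_div.to_comp
theorem nat_mod' : Computable₂ ((· % ·) : ℕ → ℕ → ℕ) := Primrec.nat_mod.to_comp

variable {α : Type*} [Primcodable α]

theorem comp_natPow {f g : α → ℕ} (hf : Computable f) (hg : Computable g) :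
    Computable fun a => f a ^ g a := by
  have h1 : Primrec₂ ((· ^ ·) : ℕ → ℕ → ℕ) := Primrec₂.unpaired'.1 Nat.Primrec.pow
  exact h1.to_comp.comp hf hg

theorem comp_add {f g : α → ℚ} (hf : Computable f) (hg : Computable g) :
    Computable fun a => f a + g a := by
  have h1 : Computable fun a => mkQ
      (posNum (f a) * (g a).den + posNum (g a) * (f a).den,
       negNum (f a) * (g a).den + negNum (g a) * (f a).den,
       (f a).den * (g a).den) :=
    computable_mkQ.comp
      ((nat_add'.comp (nat_mul'.comp (computable_posNum.comp hf) (computable_den.comp hg))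
        (nat_mul'.comp (computable_posNum.comp hg) (computable_den.comp hf))).pair
      ((nat_add'.comp (nat_mul'.comp (computable_negNum.comp hf) (computable_den.comp hg))
        (nat_mul'.comp (computable_negNum.comp hg) (computable_den.comp hf))).pair
      (nat_mul'.comp (computable_den.comp hf) (computable_den.comp hg))))
  refine h1.of_eq ?_
  intro a
  unfold mkQ
  have h1 := rat_repr (f a)
  have h2 := rat_repr (g a)
  have hd1 : ((f a).den : ℚ) ≠ 0 := by exact_mod_cast (f a).den_nz
  have hd2 : ((g a).den : ℚ) ≠ 0 := by exact_mod_cast (g a).den_nz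
  conv_rhs => rw [h1, h2]
  push_cast
  field_simp
  ring

theorem comp_mul {f g : α → ℚ} (hf : Computable f) (hg : Computable g) :
    Computable fun a => f a * g a := by
  have h1 : Computable fun a => mkQ
      (posNum (f a) * posNum (g a) + negNum (f a) * negNum (g a),
       posNum (f a) * negNum (g a) + negNum (f a) * posNum (g a),
       (f a).den * (g a).den) :=
    computable_mkQ.comp
      ((nat_add'.comp (nat_mul'.comp (computable_posNum.comp hf) (computable_posNum.comp hg))
        (nat_mul'.comp (computable_negNum.comp hf) (computable_negNum.comp hg))).pair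
      ((nat_add'.comp (nat_mul'.comp (computable_posNum.comp hf) (computable_negNum.comp hg))
        (nat_mul'.comp (computable_negNum.comp hf) (computable_posNum.comp hg))).pair
      (nat_mul'.comp (computable_den.comp hf) (computable_den.comp hg))))
  refine h1.of_eq ?_
  intro a
  unfold mkQ
  have h1 := rat_repr (f a)
  have h2 := rat_repr (g a)
  have hd1 : ((f a).den : ℚ) ≠ 0 := by exact_mod_cast (f a).den_nz
  have hd2 : ((g a).den : ℚ) ≠ 0 := by exact_mod_cast (g a).den_nz
  conv_rhs => rw [h1, h2]
  push_cast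
  field_simp
  ring

theorem comp_neg {f : α → ℚ} (hf : Computable f) : Computable fun a => - f a := by
  refine (comp_mul (Computable.const (-1 : ℚ)) hf).of_eq ?_
  intro a; ring

theorem comp_sub {f g : α → ℚ} (hf : Computable f) (hg : Computable g) :
    Computable fun a => f a - g a := by
  refine (comp_add hf (comp_neg hg)).of_eq ?_
  intro a; ring

theorem comp_natCast {f : α → ℕ} (hf : Computable f) : Computable fun a => ((f a : ℕ) : ℚ) := by
  refine (computable_mkQ.comp (hf.pair ((Computable.const 0).pair (Computable.const 1)))).of_eq ?_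
  intro a
  simp [mkQ]

theorem comp_natInv {f : α → ℕ} (hf : Computable f) : Computable fun a => ((f a : ℕ) : ℚ)⁻¹ := by
  refine (computable_mkQ.comp ((Computable.const 1).pair ((Computable.const 0).pair hf))).of_eq ?_
  intro a
  simp [mkQ]

theorem comp_posPart {f : α → ℚ} (hf : Computable f) : Computable fun a => max (f a) 0 := by
  refine (computable_mkQ.comp ((computable_posNum.comp hf).pair
    ((Computable.const 0).pair (computable_den.comp hf)))).of_eq ?_
  intro a
  unfold mkQ posNum
  have hd1 : (0 : ℚ) < ((f a).den : ℚ) := by exact_mod_cast (f a).pos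
  rcases le_total 0 (f a) with h | h
  · rw [max_eq_left h]
    have h2 : 0 ≤ (f a).num := Rat.num_nonneg.2 h
    have h3 : (((f a).num.toNat : ℕ) : ℚ) = (f a).num := by
      have := Int.toNat_of_nonneg h2
      exact_mod_cast congrArg (fun z : ℤ => (z : ℚ)) this
    rw [h3]
    simp [Rat.num_div_den]
  · rw [max_eq_right h]
    have h2 : (f a).num ≤ 0 := Rat.num_nonpos.2 h
    have h3 : (f a).num.toNat = 0 := Int.toNat_eq_zero.2 h2
    rw [h3]; simp

theorem comp_pow {f : α → ℚ} {g : α → ℕ} (hf : Computable f) (hg : Computable g) :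
    Computable fun a => f a ^ g a := by
  have h : Computable₂ fun (a : α) (p : ℕ × ℚ) => p.2 * f a :=
    comp_mul (Computable.snd.comp Computable.snd) (hf.comp Computable.fst)
  refine (Computable.nat_rec hg (Computable.const (1 : ℚ)) h).of_eq ?_
  intro a
  generalize g a = n
  induction n with
  | zero => simp
  | succ n ih => simp only [pow_succ]; rw [← ih]

theorem comp_sum {f : α → ℕ → ℚ} {g : α → ℕ} (hf : Computable₂ f) (hg : Computable g) :
    Computable fun a => ∑ i ∈ Finset.range (g a), f a i := by
  have h : Computable₂ fun (a : α) (p : ℕ × ℚ) => p.2 + f a p.1 :=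
    comp_add (Computable.snd.comp Computable.snd)
      (hf.comp Computable.fst (Computable.fst.comp Computable.snd))
  refine (Computable.nat_rec hg (Computable.const (0 : ℚ)) h).of_eq ?_
  intro a
  generalize g a = n
  induction n with
  | zero => simp
  | succ n ih => rw [Finset.sum_range_succ, ← ih]

theorem comp_natSum {f : α → ℕ → ℕ} {g : α → ℕ} (hf : Computable₂ f) (hg : Computable g) :
    Computable fun a => ∑ i ∈ Finset.range (g a), f a i := by
  have h : Computable₂ fun (a : α) (p : ℕ × ℕ) => p.2 + f a p.1 :=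
    nat_add'.comp (Computable.snd.comp Computable.snd)
      (hf.comp Computable.fst (Computable.fst.comp Computable.snd))
  refine (Computable.nat_rec hg (Computable.const (0 : ℕ)) h).of_eq ?_
  intro a
  generalize g a = n
  induction n with
  | zero => simp
  | succ n ih => rw [Finset.sum_range_succ, ← ih]

theorem comp_factorial {f : α → ℕ} (hf : Computable f) : Computable fun a => (f a).factorial := by
  have h : Computable₂ fun (_ : α) (p : ℕ × ℕ) => (p.1 + 1) * p.2 :=
    nat_mul'.comp (Computable.succ.comp (Computable.fst.comp Computable.snd))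
      (Computable.snd.comp Computable.snd)
  refine (Computable.nat_rec hf (Computable.const (1 : ℕ)) h).of_eq ?_
  intro a
  generalize f a = n
  induction n with
  | zero => simp
  | succ n ih => rw [Nat.factorial_succ, ← ih]

end arith

end Crest.Agent.H2.RatComp
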