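import Crest.Agent.H2.CA

/-! Plateau functions, linear plateau functions and time profiles built from `H`. -/

set_option autoImplicit false

namespace Crest.Agent.H2

open Step

theorem Step.fixed_eq_H {f : ℝ → ℝ} (hf : Prof f) (hK : K f = f) : f = H := by
  have up : ∀ n x, f x ≤ Hn n x := by
    intro n
    induction n with
    | zero => intro x; rw [← hK]; exact hf.K_upper x
    | succ n ih => intro x; rw [← hK]; exact K_mono hf.cont (prof_Hn n).cont ih x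
  have low : ∀ n x, Hn n (x - (1 / 2) ^ (n + 1)) ≤ f x := by
    intro n
    induction n with
    | zero =>
      intro x
      rw [← hK]
      refine le_trans ?_ (hf.K_lower x)
      show clamp (2 * (x - (1/2) ^ (0 + 1))) ≤ _
      apply clamp_mono
      norm_num; linarith
    | succ n ih =>
      intro x
      have h1 : Hn (n + 1) (x - (1 / 2) ^ (n + 1 + 1)) = K (fun y => Hn n (y - (1/2) ^ (n + 1))) x := by
        rw [K_shift]
        show K (Hn n) _ = _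
        congr 1
        rw [pow_succ]; ring
      rw [h1, ← hK]
      exact K_mono ((prof_Hn n).cont.comp (continuous_id.sub continuous_const)) hf.cont ih x
  funext x
  apply le_antisymm
  · exact le_ciInf fun n => up n x
  · have h1 : ∀ n, H x - (1/2) ^ n ≤ f x := by
      intro n
      have a1 := low n x
      have a2 : H x ≤ Hn n x := ciInf_le (H_bdd x) n
      have h3 := Hn_lip n (x := x - (1/2) ^ (n + 1)) (y := x) (by
        have : (0:ℝ) ≤ (1/2) ^ (n + 1) := by positivity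
        linarith)
      rw [abs_le] at h3
      have h4 : 2 * (x - (x - (1/2 : ℝ) ^ (n + 1))) = (1/2) ^ n := by rw [pow_succ]; ring
      rw [h4] at h3
      linarith [h3.2]
    have h2 : Filter.Tendsto (fun n : ℕ => H x - (1/2:ℝ) ^ n) Filter.atTop (nhds (H x - 0)) :=
      tendsto_const_nhds.sub half_pow_tendsto
    rw [sub_zero] at h2
    exact le_of_tendsto h2 (Filter.Eventually.of_forall h1)

theorem Step.H_symm (x : ℝ) : H x + H (1 - x) = 1 := by
  have hp : Prof (fun x => 1 - H (1 - x)) :=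
    { cont := by
        have := H_cont
        fun_prop
      nonneg := fun x => by have := prof_H.le_one (1 - x); linarith
      le_one := fun x => by have := prof_H.nonneg (1 - x); linarith
      zero := fun x h => by have := prof_H.one (1 - x) (by linarith); linarith
      one := fun x h => by have := prof_H.zero (1 - x) (by linarith); linarith }
  have hK : K (fun x => 1 - H (1 - x)) = fun x => 1 - H (1 - x) := by
    funext x
    show (∫ u in (2 * x - 1)..(2 * x), (1 - H (1 - u))) = 1 - H (1 - x)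
    have hint : IntervalIntegrable (fun u => H (1 - u)) MeasureTheory.volume (2 * x - 1) (2 * x) :=
      (H_cont.comp (continuous_const.sub continuous_id)).intervalIntegrable _ _
    rw [intervalIntegral.integral_sub (by simp) hint]
    rw [intervalIntegral.integral_comp_sub_left (fun u => H u) 1]
    have : H (1 - x) = K H (1 - x) := by rw [K_H]
    rw [this]
    unfold K
    simp only [intervalIntegral.integral_const, smul_eq_mul, mul_one]
    have e1 : 2 * x - (2 * x - 1) = 1 := by ring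
    have e2 : 1 - 2 * x = 2 * (1 - x) - 1 := by ring
    have e3 : 1 - (2 * x - 1) = 2 * (1 - x) := by ring
    rw [e1, e2, e3]
  have : 1 - H (1 - x) = H x := congrFun (fixed_eq_H hp hK) x
  linarith

theorem Step.H_half : H (1 / 2) = 1 / 2 := by
  have := H_symm (1/2)
  norm_num at this ⊢
  linarith

theorem Step.D_of_nonpos (k : ℕ) {x : ℝ} (h : x ≤ 0) : D k x = 0 := by
  induction k generalizing x with
  | zero => exact prof_H.zero x h
  | succ k ih =>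
    show 2 ^ (k + 1) * (D k (2 * x) - D k (2 * x - 1)) = 0
    rw [ih (by linarith), ih (by linarith)]; ring

theorem Step.D_zero_of_one_le {x : ℝ} (h : 1 ≤ x) : D 0 x = 1 := prof_H.one x h

theorem Step.D_succ_of_one_le (k : ℕ) {x : ℝ} (h : 1 ≤ x) : D (k + 1) x = 0 := by
  induction k generalizing x with
  | zero =>
    show 2 ^ (0 + 1) * (D 0 (2 * x) - D 0 (2 * x - 1)) = 0
    rw [D_zero_of_one_le (by linarith), D_zero_of_one_le (by linarith)]; ring
  | succ k ih =>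
    show 2 ^ (k + 1 + 1) * (D (k + 1) (2 * x) - D (k + 1) (2 * x - 1)) = 0
    rw [ih (by linarith), ih (by linarith)]; ring

/-- derivative sequence of `x ↦ H (α x + β)` -/
noncomputable def affD (α β : ℚ) (k : ℕ) (x : ℝ) : ℝ := (α : ℝ) ^ k * D k (α * x + β)

theorem effSeq_affD (α β : ℚ) : EffSeq (affD α β) := effSeq_H.affine α β

/-- plateau functions -/
theorem exists_plateau (lo hi η : ℚ) (hlh : lo ≤ hi) (hη : 0 < η) :
    ∃ P : ℕ → ℝ → ℝ, EffSeq P ∧ (∀ x : ℝ, (lo : ℝ) ≤ x → x ≤ hi → P 0 x = 1 ∧ P 1 x = 0) ∧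
      (∀ x : ℝ, (x ≤ (lo : ℝ) - η ∨ (hi : ℝ) + η ≤ x) → P 0 x = 0 ∧ P 1 x = 0) := by
  have hη' : (0:ℝ) < (η : ℝ) := by exact_mod_cast hη
  have hlh' : (lo : ℝ) ≤ hi := by exact_mod_cast hlh
  refine ⟨fun k x => affD η⁻¹ (1 - lo * η⁻¹) k x + ((-1 : ℚ) : ℝ) * affD η⁻¹ (-(hi * η⁻¹)) k x,
    (effSeq_affD _ _).add ((effSeq_affD _ _).smul (-1)), ?_, ?_⟩
  · intro x h1 h2
    have a1 : 1 ≤ ((η⁻¹ : ℚ) : ℝ) * x + ((1 - lo * η⁻¹ : ℚ) : ℝ) := by
      push_cast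
      have : 0 ≤ (η : ℝ)⁻¹ * (x - lo) := mul_nonneg (by positivity) (by linarith)
      linarith
    have a2 : ((η⁻¹ : ℚ) : ℝ) * x + ((-(hi * η⁻¹) : ℚ) : ℝ) ≤ 0 := by
      push_cast
      have : 0 ≤ (η : ℝ)⁻¹ * (hi - x) := mul_nonneg (by positivity) (by linarith)
      linarith
    unfold affD
    beta_reduce
    constructor
    · rw [D_zero_of_one_le a1, D_of_nonpos 0 a2]; simp
    · rw [D_succ_of_one_le 0 a1, D_of_nonpos 1 a2]; simp
  · intro x hx
    rcases hx with h | h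
    · have a1 : ((η⁻¹ : ℚ) : ℝ) * x + ((1 - lo * η⁻¹ : ℚ) : ℝ) ≤ 0 := by
        push_cast
        have : 0 ≤ (η : ℝ)⁻¹ * (lo - η - x) := mul_nonneg (by positivity) (by linarith)
        have e : (η : ℝ)⁻¹ * η = 1 := inv_mul_cancel₀ hη'.ne'
        nlinarith
      have a2 : ((η⁻¹ : ℚ) : ℝ) * x + ((-(hi * η⁻¹) : ℚ) : ℝ) ≤ 0 := by
        push_cast
        have : 0 ≤ (η : ℝ)⁻¹ * (hi - x) := mul_nonneg (by positivity) (by linarith)
        linarith
      unfold affD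
      beta_reduce
      constructor
      · rw [D_of_nonpos 0 a1, D_of_nonpos 0 a2]; simp
      · rw [D_of_nonpos 1 a1, D_of_nonpos 1 a2]; simp
    · have a1 : 1 ≤ ((η⁻¹ : ℚ) : ℝ) * x + ((1 - lo * η⁻¹ : ℚ) : ℝ) := by
        push_cast
        have : 0 ≤ (η : ℝ)⁻¹ * (x - lo) := mul_nonneg (by positivity) (by linarith)
        linarith
      have a2 : 1 ≤ ((η⁻¹ : ℚ) : ℝ) * x + ((-(hi * η⁻¹) : ℚ) : ℝ) := by
        push_cast
        have : 0 ≤ (η : ℝ)⁻¹ * (x - hi - η) := mul_nonneg (by positivity) (by linarith)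
        have e : (η : ℝ)⁻¹ * η = 1 := inv_mul_cancel₀ hη'.ne'
        nlinarith
      unfold affD
      beta_reduce
      constructor
      · rw [D_zero_of_one_le a1, D_zero_of_one_le a2]; simp
      · rw [D_succ_of_one_le 0 a1, D_succ_of_one_le 0 a2]; simp

/-- raw ramp: slope one on `[1,m]`, zero outside `[0,m+2]` -/
noncomputable def ramp (m : ℕ) (k : ℕ) (y : ℝ) : ℝ :=
  (∑ i ∈ Finset.range m, affD (1/2) (-(i : ℚ) / 2) k y) + ((-(m : ℚ) : ℚ) : ℝ) * affD 1 (-(m : ℚ) - 1) k y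

theorem effSeq_ramp (m : ℕ) : EffSeq (ramp m) :=
  (EffSeq.sum (fun i => effSeq_affD (1/2) (-(i : ℚ) / 2)) m).add ((effSeq_affD _ _).smul _)

theorem ramp_zero_left (m k : ℕ) {y : ℝ} (h : y ≤ 0) : ramp m k y = 0 := by
  unfold ramp affD
  rw [Finset.sum_eq_zero, zero_add]
  · rw [D_of_nonpos k (x := ((1 : ℚ) : ℝ) * y + ((-(m : ℚ) - 1 : ℚ) : ℝ)) (by
      push_cast
      have : (0:ℝ) ≤ m := Nat.cast_nonneg m
      linarith)]
    simp
  · intro i _
    rw [D_of_nonpos k (x := ((1/2 : ℚ) : ℝ) * y + ((-(i : ℚ) / 2 : ℚ) : ℝ)) (by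
      push_cast
      have : (0:ℝ) ≤ i := Nat.cast_nonneg i
      linarith)]
    simp

theorem ramp_zero_right (m : ℕ) {y : ℝ} (h : (m : ℝ) + 2 ≤ y) : ramp m 0 y = 0 ∧ ramp m 1 y = 0 := by
  have e1 : ∀ i ∈ Finset.range m, 1 ≤ ((1/2 : ℚ) : ℝ) * y + ((-(i : ℚ) / 2 : ℚ) : ℝ) := by
    intro i hi
    have : (i : ℝ) ≤ m := by exact_mod_cast (Finset.mem_range.1 hi).le
    push_cast; linarith
  have e2 : 1 ≤ ((1 : ℚ) : ℝ) * y + ((-(m : ℚ) - 1 : ℚ) : ℝ) := by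
    push_cast; linarith
  unfold ramp affD
  constructor
  · have : ∀ i ∈ Finset.range m, ((1/2 : ℚ) : ℝ) ^ 0 * D 0 (((1/2 : ℚ) : ℝ) * y + ((-(i : ℚ) / 2 : ℚ) : ℝ)) = 1 := by
      intro i hi
      rw [D_zero_of_one_le (e1 i hi)]; simp
    rw [Finset.sum_congr rfl this, D_zero_of_one_le e2]
    simp
  · have : ∀ i ∈ Finset.range m, ((1/2 : ℚ) : ℝ) ^ 1 * D 1 (((1/2 : ℚ) : ℝ) * y + ((-(i : ℚ) / 2 : ℚ) : ℝ)) = 0 := by
      intro i hi
      rw [D_succ_of_one_le 0 (e1 i hi)]; simp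
    rw [Finset.sum_congr rfl this, D_succ_of_one_le 0 e2]
    simp

theorem ramp_slope (m : ℕ) {y : ℝ} (h1 : 1 ≤ y) (h2 : y ≤ m) : ramp m 1 y = 1 := by
  unfold ramp affD
  have e : ∀ i : ℕ, ((1/2 : ℚ) : ℝ) ^ 1 * D 1 (((1/2 : ℚ) : ℝ) * y + ((-(i : ℚ) / 2 : ℚ) : ℝ))
      = H (y - i) - H (y - (i + 1 : ℕ)) := by
    intro i
    show ((1/2 : ℚ) : ℝ) ^ 1 * (2 ^ (0 + 1) * (H (2 * _) - H (2 * _ - 1))) = _
    have a1 : 2 * (((1/2 : ℚ) : ℝ) * y + ((-(i : ℚ) / 2 : ℚ) : ℝ)) = y - i := by push_cast; ring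
    rw [a1]
    have a2 : y - (i:ℝ) - 1 = y - ((i + 1 : ℕ) : ℝ) := by push_cast; ring
    rw [a2]
    push_cast; ring
  simp only [e]
  rw [Finset.sum_range_sub' (fun i : ℕ => H (y - i)) m]
  rw [prof_H.one _ (by simpa using h1), prof_H.zero _ (by linarith)]
  rw [D_of_nonpos 1 (by push_cast; linarith)]
  simp

theorem ramp_value (m : ℕ) {y : ℝ} (h1 : 1 ≤ y) (h2 : y ≤ m) : ramp m 0 y = y - 1 / 2 := by
  -- value at one
  have hm : 1 ≤ m := by exact_mod_cast h1.trans h2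
  have v1 : ramp m 0 1 = 1 / 2 := by
    unfold ramp affD
    obtain ⟨m', rfl⟩ : ∃ m', m = m' + 1 := ⟨m - 1, by omega⟩
    rw [Finset.sum_range_succ']
    rw [Finset.sum_eq_zero]
    · rw [D_of_nonpos 0 (x := ((1 : ℚ) : ℝ) * 1 + ((-((m' + 1 : ℕ) : ℚ) - 1 : ℚ) : ℝ)) (by
        push_cast
        have : (0:ℝ) ≤ m' := Nat.cast_nonneg m'
        linarith)]
      have : D 0 (((1/2 : ℚ) : ℝ) * 1 + ((-((0:ℕ) : ℚ) / 2 : ℚ) : ℝ)) = 1 / 2 := by
        have e : ((1/2 : ℚ) : ℝ) * 1 + ((-((0:ℕ) : ℚ) / 2 : ℚ) : ℝ) = 1 / 2 := by push_cast; ring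
        rw [e]; exact H_half
      rw [this]; simp
    · intro i _
      rw [D_of_nonpos 0 (by
        push_cast
        have : (0:ℝ) ≤ i := Nat.cast_nonneg i
        linarith)]
      simp
  -- derivative of `ramp - id` vanishes on `[1,m]`
  have hc : ∀ z ∈ Set.Icc (1:ℝ) m, ramp m 0 z - z = ramp m 0 1 - 1 := by
    apply constant_of_has_deriv_right_zero
    · have := (effSeq_ramp m).contDiff 0
      exact (this.continuous.sub continuous_id).continuousOn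
    · intro z hz
      have h3 : HasDerivAt (fun x => ramp m 0 x - x) (ramp m (0 + 1) z - 1) z :=
        ((effSeq_ramp m).deriv 0 z).sub (hasDerivAt_id z)
      rw [Nat.zero_add, ramp_slope m hz.1 hz.2.le, sub_self] at h3
      exact h3.hasDerivWithinAt
  have := hc y ⟨h1, h2⟩
  rw [v1] at this
  linarith

/-- linear plateau functions -/
theorem exists_linear (lo hi η c : ℚ) (hlh : lo ≤ hi) (hη : 0 < η) :
    ∃ L : ℕ → ℝ → ℝ, EffSeq L ∧ (∀ x : ℝ, (lo : ℝ) ≤ x → x ≤ hi → L 0 x = x - c ∧ L 1 x = 1) ∧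
      (∀ x : ℝ, (x ≤ (lo : ℝ) - η ∨ (hi : ℝ) + η ≤ x) → L 0 x = 0 ∧ L 1 x = 0) := by
  obtain ⟨P, hP, hP1, hP2⟩ := exists_plateau lo hi η hlh hη
  have hη' : (0:ℝ) < (η : ℝ) := by exact_mod_cast hη
  have hlh' : (lo : ℝ) ≤ hi := by exact_mod_cast hlh
  set δ : ℚ := η / 3 with hδ
  have hδ0 : 0 < δ := by rw [hδ]; positivity
  have hδ' : (0:ℝ) < (δ : ℝ) := by exact_mod_cast hδ0
  have hδη : (η : ℝ) = 3 * δ := by rw [hδ]; push_cast; ring
  set m : ℕ := ⌈(hi - lo) / δ⌉₊ + 1 with hm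
  have hm1 : (hi : ℝ) - lo ≤ δ * (m - 1) := by
    have h := Nat.le_ceil ((hi - lo) / δ)
    rw [div_le_iff₀ hδ0] at h
    have h' : ((hi - lo : ℚ) : ℝ) ≤ ((⌈(hi - lo) / δ⌉₊ * δ : ℚ) : ℝ) := by exact_mod_cast h
    rw [hm]; push_cast at h' ⊢
    linarith
  have hm2 : (δ : ℝ) * (m - 1) < hi - lo + δ := by
    have h0 : 0 ≤ (hi - lo) / δ := div_nonneg (by linarith) hδ0.le
    have h := Nat.ceil_lt_add_one h0
    have h2 : (⌈(hi - lo) / δ⌉₊ : ℚ) * δ < ((hi - lo) / δ + 1) * δ := by gcongr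
    have h3 : ((hi - lo) / δ + 1) * δ = hi - lo + δ := by field_simp
    rw [h3] at h2
    have h' : ((⌈(hi - lo) / δ⌉₊ * δ : ℚ) : ℝ) < ((hi - lo + δ : ℚ) : ℝ) := by exact_mod_cast h2
    rw [hm]; push_cast at h' ⊢
    linarith
  have hramp : EffSeq fun k x => (δ : ℝ) * (((δ⁻¹ : ℚ) : ℝ) ^ k * ramp m k (((δ⁻¹ : ℚ) : ℝ) * x + ((1 - lo * δ⁻¹ : ℚ) : ℝ))) :=
    ((effSeq_ramp m).affine δ⁻¹ (1 - lo * δ⁻¹)).smul δ
  refine ⟨fun k x => (δ : ℝ) * (((δ⁻¹ : ℚ) : ℝ) ^ k * ramp m k (((δ⁻¹ : ℚ) : ℝ) * x + ((1 - lo * δ⁻¹ : ℚ) : ℝ)))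
      + ((lo - δ / 2 - c : ℚ) : ℝ) * P k x, hramp.add (hP.smul _), ?_, ?_⟩
  · intro x h1 h2
    have hy : ((δ⁻¹ : ℚ) : ℝ) * x + ((1 - lo * δ⁻¹ : ℚ) : ℝ) = (δ : ℝ)⁻¹ * (x - lo) + 1 := by
      push_cast; ring
    beta_reduce
    rw [hy]
    have y1 : 1 ≤ (δ : ℝ)⁻¹ * (x - lo) + 1 := by
      have : 0 ≤ (δ : ℝ)⁻¹ * (x - lo) := mul_nonneg (by positivity) (by linarith)
      linarith
    have y2 : (δ : ℝ)⁻¹ * (x - lo) + 1 ≤ m := by
      have : (δ : ℝ)⁻¹ * (x - lo) ≤ m - 1 := by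
        rw [inv_mul_le_iff₀ hδ']; linarith
      linarith
    rw [ramp_value m y1 y2, ramp_slope m y1 y2, (hP1 x h1 h2).1, (hP1 x h1 h2).2]
    have hne : (δ : ℝ) ≠ 0 := hδ'.ne'
    constructor
    · push_cast; field_simp; ring
    · push_cast; field_simp; ring
  · intro x hx
    have hy : ((δ⁻¹ : ℚ) : ℝ) * x + ((1 - lo * δ⁻¹ : ℚ) : ℝ) = (δ : ℝ)⁻¹ * (x - lo) + 1 := by
      push_cast; ring
    beta_reduce
    rw [(hP2 x hx).1, (hP2 x hx).2, hy]
    rcases hx with h | h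
    · have y1 : (δ : ℝ)⁻¹ * (x - lo) + 1 ≤ 0 := by
        have : (δ : ℝ)⁻¹ * (x - lo) ≤ -1 := by
          rw [inv_mul_le_iff₀ hδ']; linarith
        linarith
      rw [ramp_zero_left m 0 y1, ramp_zero_left m 1 y1]
      simp
    · have y1 : (m : ℝ) + 2 ≤ (δ : ℝ)⁻¹ * (x - lo) + 1 := by
        have : (m : ℝ) + 1 ≤ (δ : ℝ)⁻¹ * (x - lo) := by
          rw [le_inv_mul_iff₀ hδ']
          nlinarith
        linarith
      rw [(ramp_zero_right m y1).1, (ramp_zero_right m y1).2]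
      simp

/-- time profiles -/
theorem exists_time (s t : ℚ) (hst : s < t) :
    ∃ (S : ℝ → ℝ) (θ : ℕ → ℝ → ℝ), EffSeq θ ∧ (∀ τ, HasDerivAt S (θ 0 τ) τ) ∧
      (∀ τ, τ ≤ (s : ℝ) → S τ = 0) ∧ (∀ τ, (t : ℝ) ≤ τ → S τ = 1) ∧ (∀ τ, 0 ≤ S τ ∧ S τ ≤ 1) ∧
      (∀ τ, (τ ≤ (s : ℝ) ∨ (t : ℝ) ≤ τ) → θ 0 τ = 0) := by
  have hst' : (s : ℝ) < t := by exact_mod_cast hst
  set c : ℚ := (t - s)⁻¹ with hc
  have hc0 : 0 < c := inv_pos.2 (by linarith)
  have hc0' : (0:ℝ) < (c : ℝ) := by exact_mod_cast hc0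
  have hcc : (c : ℝ) * (t - s) = 1 := by
    rw [hc]; push_cast; exact inv_mul_cancel₀ (by linarith)
  have he := effSeq_affD c (-(c * s))
  refine ⟨affD c (-(c * s)) 0, fun k => affD c (-(c * s)) (k + 1), he.shift, fun τ => he.deriv 0 τ,
    ?_, ?_, ?_, ?_⟩
  · intro τ h
    unfold affD
    rw [D_of_nonpos 0 (by push_cast; nlinarith)]; simp
  · intro τ h
    unfold affD
    rw [D_zero_of_one_le (by push_cast; nlinarith)]; simp
  · intro τ
    unfold affD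
    simp only [pow_zero, one_mul]
    exact ⟨prof_H.nonneg _, prof_H.le_one _⟩
  · intro τ h
    unfold affD
    beta_reduce
    rcases h with h | h
    · rw [D_of_nonpos (0 + 1) (by push_cast; nlinarith)]; simp
    · rw [D_succ_of_one_le 0 (by push_cast; nlinarith)]; simp

end Crest.Agent.H2
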