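import Mathlib

/-! The smooth step `H`: the unique function with `H x = ∫_{2x-1}^{2x} H`, `H = 0` on `(-∞,0]`,
`H = 1` on `[1,∞)`, together with explicit spline approximations of all its derivatives. -/

set_option autoImplicit false

namespace Crest.Agent.H2.Step

open MeasureTheory intervalIntegral Set

/-- the clamp of `x` to `[0,1]` -/
noncomputable def clamp (x : ℝ) : ℝ := min 1 (max 0 x)

/-- class of admissible profiles -/
structure Prof (f : ℝ → ℝ) : Prop where
  cont : Continuous f
  nonneg : ∀ x, 0 ≤ f x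
  le_one : ∀ x, f x ≤ 1
  zero : ∀ x, x ≤ 0 → f x = 0
  one : ∀ x, 1 ≤ x → f x = 1

/-- the primitive vanishing at `0` -/
noncomputable def prim (f : ℝ → ℝ) (y : ℝ) : ℝ := ∫ u in (0:ℝ)..y, f u

/-- the averaging operator -/
noncomputable def K (f : ℝ → ℝ) (x : ℝ) : ℝ := ∫ u in (2 * x - 1)..(2 * x), f u

variable {f g : ℝ → ℝ}

theorem Prof.ii (hf : Prof f) (a b : ℝ) : IntervalIntegrable f volume a b :=
  hf.cont.intervalIntegrable a b

theorem prim_sub (hf : Continuous f) (a b : ℝ) : prim f b - prim f a = ∫ u in a..b, f u :=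
  integral_interval_sub_left (hf.intervalIntegrable _ _) (hf.intervalIntegrable _ _)

theorem K_eq (hf : Continuous f) (x : ℝ) : K f x = prim f (2 * x) - prim f (2 * x - 1) :=
  (prim_sub hf _ _).symm

theorem Prof.prim_mono (hf : Prof f) {a b : ℝ} (h : a ≤ b) : prim f a ≤ prim f b := by
  have h1 := prim_sub hf.cont a b
  have h2 : 0 ≤ ∫ u in a..b, f u := integral_nonneg h (fun u _ => hf.nonneg u)
  linarith

theorem Prof.prim_lip (hf : Prof f) {a b : ℝ} (h : a ≤ b) : prim f b - prim f a ≤ b - a := by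
  rw [prim_sub hf.cont a b]
  calc ∫ u in a..b, f u ≤ ∫ u in a..b, (1:ℝ) :=
        integral_mono_on h (hf.ii a b) (by simp) (fun u _ => hf.le_one u)
    _ = b - a := by simp

theorem Prof.prim_zero (hf : Prof f) {y : ℝ} (h : y ≤ 0) : prim f y = 0 := by
  unfold prim
  rw [integral_symm]
  have : ∫ u in y..(0:ℝ), f u = ∫ u in y..(0:ℝ), (0:ℝ) := by
    apply integral_congr
    intro u hu
    rw [uIcc_of_le h] at hu
    exact hf.zero u hu.2
  rw [this]; simp

theorem Prof.prim_one (hf : Prof f) {a b : ℝ} (h1 : 1 ≤ a) (h : a ≤ b) :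
    prim f b - prim f a = b - a := by
  rw [prim_sub hf.cont a b]
  have : ∫ u in a..b, f u = ∫ u in a..b, (1:ℝ) := by
    apply integral_congr
    intro u hu
    rw [uIcc_of_le h] at hu
    exact hf.one u (h1.trans hu.1)
  rw [this]; simp

theorem prim_hasDerivAt (hf : Continuous f) (y : ℝ) : HasDerivAt (prim f) (f y) y :=
  integral_hasDerivAt_right (hf.intervalIntegrable _ _)
    (hf.stronglyMeasurableAtFilter _ _) hf.continuousAt

theorem K_hasDerivAt (hf : Continuous f) (x : ℝ) :
    HasDerivAt (K f) (2 * f (2 * x) - 2 * f (2 * x - 1)) x := by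
  have h1 : K f = fun x => prim f (2 * x) - prim f (2 * x - 1) := funext (K_eq hf)
  rw [h1]
  have a1 : HasDerivAt (fun x : ℝ => 2 * x) 2 x := by
    simpa using (hasDerivAt_id x).const_mul (2:ℝ)
  have a2 : HasDerivAt (fun x : ℝ => 2 * x - 1) 2 x := a1.sub_const 1
  have b1 := (prim_hasDerivAt hf (2 * x)).comp x a1
  have b2 := (prim_hasDerivAt hf (2 * x - 1)).comp x a2
  exact (b1.sub b2).congr_deriv (by ring)

theorem Prof.K_upper (hf : Prof f) (x : ℝ) : K f x ≤ clamp (2 * x) := by
  rw [K_eq hf.cont]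
  unfold clamp
  refine le_min ?_ ?_
  · have := hf.prim_lip (a := 2 * x - 1) (b := 2 * x) (by linarith)
    linarith
  · have h0 : 0 ≤ prim f (2 * x - 1) := by
      rcases le_total (2 * x - 1) 0 with h | h
      · rw [hf.prim_zero h]
      · have := hf.prim_mono h
        rw [hf.prim_zero le_rfl] at this
        exact this
    rcases le_total (2 * x) 0 with h | h
    · rw [hf.prim_zero h]
      have : (0:ℝ) ≤ max 0 (2 * x) := le_max_left _ _
      linarith
    · have := hf.prim_lip h
      rw [hf.prim_zero le_rfl] at this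
      have h3 : 2 * x ≤ max 0 (2 * x) := le_max_right _ _
      linarith

theorem Prof.K_lower (hf : Prof f) (x : ℝ) : clamp (2 * x - 1) ≤ K f x := by
  rw [K_eq hf.cont]
  unfold clamp
  have hm := hf.prim_mono (a := 2 * x - 1) (b := 2 * x) (by linarith)
  rcases le_total (2 * x - 1) 0 with h | h
  · refine (min_le_right _ _).trans ?_
    rw [max_eq_left h]; linarith
  · rcases le_total (2 * x - 1) 1 with h1 | h1
    · refine (min_le_right _ _).trans ?_
      rw [max_eq_right h]
      have a1 := hf.prim_mono (a := 2 * x - 1) (b := 1) h1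
      have a2 := hf.prim_one (a := 1) (b := 2 * x) le_rfl (by linarith)
      linarith
    · refine (min_le_left _ _).trans ?_
      have a2 := hf.prim_one (a := 2 * x - 1) (b := 2 * x) h1 (by linarith)
      linarith

theorem clamp_of_nonpos {x : ℝ} (h : x ≤ 0) : clamp x = 0 := by
  unfold clamp; rw [max_eq_left h]; simp

theorem clamp_of_one_le {x : ℝ} (h : 1 ≤ x) : clamp x = 1 := by
  unfold clamp; rw [max_eq_right (by linarith)]; exact min_eq_left h

theorem clamp_nonneg (x : ℝ) : 0 ≤ clamp x := le_min zero_le_one (le_max_left _ _)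
theorem clamp_le_one (x : ℝ) : clamp x ≤ 1 := min_le_left _ _

theorem clamp_mono {x y : ℝ} (h : x ≤ y) : clamp x ≤ clamp y := by
  unfold clamp; exact min_le_min_left _ (max_le_max_left _ h)

theorem clamp_lip {x y : ℝ} (h : x ≤ y) : clamp y - clamp x ≤ y - x := by
  unfold clamp
  rcases le_total x 0 with h1 | h1 <;> rcases le_total y 0 with h2 | h2 <;>
  rcases le_total x 1 with h3 | h3 <;> rcases le_total y 1 with h4 | h4 <;>
  simp [max_eq_left, max_eq_right, min_eq_left, min_eq_right, h1, h2, h3, h4] <;> linarith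

theorem prof_clamp : Prof (fun x => clamp (2 * x)) where
  cont := by unfold clamp; fun_prop
  nonneg x := clamp_nonneg _
  le_one x := clamp_le_one _
  zero x h := clamp_of_nonpos (by linarith)
  one x h := clamp_of_one_le (by linarith)

theorem Prof.K (hf : Prof f) : Prof (K f) where
  cont := continuous_iff_continuousAt.2 fun x => (K_hasDerivAt hf.cont x).continuousAt
  nonneg x := (clamp_nonneg _).trans (hf.K_lower x)
  le_one x := (hf.K_upper x).trans (clamp_le_one _)
  zero x h := le_antisymm ((hf.K_upper x).trans (clamp_of_nonpos (by linarith)).le)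
    ((clamp_nonneg _).trans (hf.K_lower x))
  one x h := le_antisymm ((hf.K_upper x).trans (clamp_le_one _))
    ((clamp_of_one_le (by linarith)).ge.trans (hf.K_lower x))

theorem Prof.K_lip (hf : Prof f) {x y : ℝ} (h : x ≤ y) :
    |Step.K f y - Step.K f x| ≤ 2 * (y - x) := by
  rw [K_eq hf.cont, K_eq hf.cont]
  have a1 := hf.prim_lip (a := 2 * x) (b := 2 * y) (by linarith)
  have a2 := hf.prim_lip (a := 2 * x - 1) (b := 2 * y - 1) (by linarith)
  have b1 := hf.prim_mono (a := 2 * x) (b := 2 * y) (by linarith)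
  have b2 := hf.prim_mono (a := 2 * x - 1) (b := 2 * y - 1) (by linarith)
  rw [abs_le]
  constructor <;> linarith

theorem K_mono (hf : Continuous f) (hg : Continuous g) (h : ∀ x, f x ≤ g x) (x : ℝ) :
    K f x ≤ K g x :=
  integral_mono_on (by linarith) (hf.intervalIntegrable _ _) (hg.intervalIntegrable _ _)
    (fun u _ => h u)

theorem K_shift (f : ℝ → ℝ) (c x : ℝ) : K (fun y => f (y - c)) x = K f (x - c / 2) := by
  unfold K
  rw [integral_comp_sub_right (fun u => f u) c]
  congr 1 <;> ring

theorem K_close (hf : Continuous f) (hg : Continuous g) {ε : ℝ} (h : ∀ x, |f x - g x| ≤ ε) (x : ℝ) :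
    |K f x - K g x| ≤ ε := by
  have h1 : K f x ≤ K g x + ε := by
    have : K f x ≤ K (fun y => g y + ε) x :=
      K_mono hf (hg.add continuous_const) (fun y => by
        have := (abs_le.1 (h y)).2; show f y ≤ g y + ε; linarith) x
    refine this.trans (le_of_eq ?_)
    unfold K
    rw [integral_add (hg.intervalIntegrable _ _) (by simp)]
    simp
  have h2 : K g x ≤ K f x + ε := by
    have : K g x ≤ K (fun y => f y + ε) x :=
      K_mono hg (hf.add continuous_const) (fun y => by
        have := (abs_le.1 (h y)).1; show g y ≤ f y + ε; linarith) x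
    refine this.trans (le_of_eq ?_)
    unfold K
    rw [integral_add (hf.intervalIntegrable _ _) (by simp)]
    simp
  rw [abs_le]; constructor <;> linarith

/-- the spline approximants -/
noncomputable def Hn : ℕ → ℝ → ℝ
  | 0 => fun x => clamp (2 * x)
  | n + 1 => K (Hn n)

theorem prof_Hn : ∀ n, Prof (Hn n)
  | 0 => prof_clamp
  | n + 1 => (prof_Hn n).K

theorem Hn_lip (n : ℕ) {x y : ℝ} (h : x ≤ y) : |Hn n y - Hn n x| ≤ 2 * (y - x) := by
  cases n with
  | zero =>
    have h1 := clamp_lip (x := 2 * x) (y := 2 * y) (by linarith)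
    have h2 := clamp_mono (x := 2 * x) (y := 2 * y) (by linarith)
    show |clamp (2 * y) - clamp (2 * x)| ≤ _
    rw [abs_le]; constructor <;> linarith
  | succ n => exact (prof_Hn n).K_lip h

theorem Hn_succ_le (n : ℕ) (x : ℝ) : Hn (n + 1) x ≤ Hn n x := by
  induction n generalizing x with
  | zero => exact (prof_Hn 0).K_upper x
  | succ n ih => exact K_mono (prof_Hn (n + 1)).cont (prof_Hn n).cont ih x

theorem Hn_add_le (n j : ℕ) (x : ℝ) : Hn (n + j) x ≤ Hn n x := by
  induction j with
  | zero => exact le_rfl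
  | succ j ih => exact (Hn_succ_le (n + j) x).trans ih

theorem Hn_lower (n j : ℕ) (x : ℝ) : Hn n (x - (1 / 2) ^ (n + 1)) ≤ Hn (n + j) x := by
  induction n generalizing x with
  | zero =>
    show clamp (2 * (x - (1/2) ^ (0 + 1))) ≤ _
    have e : 2 * (x - (1/2) ^ (0 + 1)) = 2 * x - 1 := by norm_num; ring
    rw [e, Nat.zero_add]
    cases j with
    | zero => exact clamp_mono (by linarith)
    | succ j => exact (prof_Hn j).K_lower x
  | succ n ih =>
    have h1 : Hn (n + 1) (x - (1 / 2) ^ (n + 1 + 1)) = K (fun y => Hn n (y - (1/2) ^ (n + 1))) x := by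
      rw [K_shift]
      show K (Hn n) _ = _
      congr 1
      rw [pow_succ]; ring
    rw [h1]
    have h2 : Hn (n + 1 + j) x = K (Hn (n + j)) x := by
      rw [show n + 1 + j = (n + j) + 1 by ring]; rfl
    rw [h2]
    exact K_mono ((prof_Hn n).cont.comp (continuous_id.sub continuous_const)) (prof_Hn (n + j)).cont
      (fun y => ih y) x

theorem Hn_close (n j : ℕ) (x : ℝ) : |Hn (n + j) x - Hn n x| ≤ (1 / 2) ^ n := by
  have h1 := Hn_add_le n j x
  have h2 := Hn_lower n j x
  have h3 := Hn_lip n (x := x - (1/2) ^ (n + 1)) (y := x) (by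
    have : (0:ℝ) ≤ (1/2) ^ (n + 1) := by positivity
    linarith)
  rw [abs_le] at h3 ⊢
  have h4 : 2 * (x - (x - (1/2 : ℝ) ^ (n + 1))) = (1/2) ^ n := by rw [pow_succ]; ring
  rw [h4] at h3
  constructor
  · linarith [h3.2]
  · have : (0:ℝ) ≤ (1/2) ^ n := by positivity
    linarith

/-- the smooth step -/
noncomputable def H (x : ℝ) : ℝ := ⨅ n, Hn n x

theorem H_bdd (x : ℝ) : BddBelow (Set.range fun n => Hn n x) :=
  ⟨0, by rintro _ ⟨n, rfl⟩; exact (prof_Hn n).nonneg x⟩

theorem H_close (n : ℕ) (x : ℝ) : |H x - Hn n x| ≤ (1 / 2) ^ n := by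
  have h1 : H x ≤ Hn n x := ciInf_le (H_bdd x) n
  have h2 : Hn n x - (1/2) ^ n ≤ H x := by
    apply le_ciInf
    intro m
    rcases le_total n m with h | h
    · obtain ⟨j, rfl⟩ := Nat.exists_eq_add_of_le h
      have := (abs_le.1 (Hn_close n j x)).1
      linarith
    · obtain ⟨j, rfl⟩ := Nat.exists_eq_add_of_le h
      have := Hn_add_le m j x
      have h5 : (0:ℝ) ≤ (1/2) ^ (m + j) := by positivity
      linarith
  rw [abs_le]; constructor
  · linarith
  · have h5 : (0:ℝ) ≤ (1/2) ^ n := by positivity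
    linarith

theorem half_pow_tendsto : Filter.Tendsto (fun n : ℕ => (1 / 2 : ℝ) ^ n) Filter.atTop (nhds 0) :=
  tendsto_pow_atTop_nhds_zero_of_lt_one (by norm_num) (by norm_num)

theorem Hn_tendsto (x : ℝ) : Filter.Tendsto (fun n => Hn n x) Filter.atTop (nhds (H x)) := by
  rw [tendsto_iff_dist_tendsto_zero]
  refine squeeze_zero (fun _ => dist_nonneg) (fun n => ?_) half_pow_tendsto
  rw [dist_comm, Real.dist_eq]
  exact H_close n x

theorem H_lip {x y : ℝ} (h : x ≤ y) : |H y - H x| ≤ 2 * (y - x) :=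
  le_of_tendsto ((Hn_tendsto y).sub (Hn_tendsto x)).abs
    (Filter.Eventually.of_forall fun n => Hn_lip n h)

theorem H_cont : Continuous H := by
  have : LipschitzWith 2 H := by
    apply LipschitzWith.of_dist_le_mul
    intro x y
    rw [Real.dist_eq, Real.dist_eq]
    rcases le_total x y with h | h
    · rw [abs_sub_comm, abs_sub_comm x y, abs_of_nonneg (sub_nonneg.2 h)]
      exact H_lip h
    · rw [abs_of_nonneg (sub_nonneg.2 h)]
      exact H_lip h
  exact this.continuous

theorem prof_H : Prof H where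
  cont := H_cont
  nonneg x := ge_of_tendsto (Hn_tendsto x) (Filter.Eventually.of_forall fun n => (prof_Hn n).nonneg x)
  le_one x := le_of_tendsto (Hn_tendsto x) (Filter.Eventually.of_forall fun n => (prof_Hn n).le_one x)
  zero x h := by
    refine tendsto_nhds_unique (Hn_tendsto x) ?_
    simp only [(prof_Hn _).zero x h]; exact tendsto_const_nhds
  one x h := by
    refine tendsto_nhds_unique (Hn_tendsto x) ?_
    simp only [(prof_Hn _).one x h]; exact tendsto_const_nhds

theorem K_H : K H = H := by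
  funext x
  have h1 : Filter.Tendsto (fun n => Hn (n + 1) x) Filter.atTop (nhds (K H x)) := by
    rw [tendsto_iff_dist_tendsto_zero]
    refine squeeze_zero (fun _ => dist_nonneg) (fun n => ?_) half_pow_tendsto
    rw [Real.dist_eq]
    exact K_close (prof_Hn n).cont H_cont (fun y => by rw [abs_sub_comm]; exact H_close n y) x
  have h2 := (Hn_tendsto x).comp (Filter.tendsto_add_atTop_nat 1)
  exact tendsto_nhds_unique h1 h2

theorem H_hasDerivAt (x : ℝ) : HasDerivAt H (2 * H (2 * x) - 2 * H (2 * x - 1)) x := by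
  have := K_hasDerivAt H_cont x
  rwa [K_H] at this

end Crest.Agent.H2.Step
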