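import Crest.Agent.H2.Step
import Crest.Agent.H2.RatComp

set_option autoImplicit false

namespace Crest.Agent.H2.Step

open MeasureTheory intervalIntegral Set

/-- derivative sequence of `H` -/
noncomputable def D : ℕ → ℝ → ℝ
  | 0 => H
  | k + 1 => fun x => 2 ^ (k + 1) * (D k (2 * x) - D k (2 * x - 1))

theorem D_hasDerivAt (k : ℕ) (x : ℝ) : HasDerivAt (D k) (D (k + 1) x) x := by
  induction k generalizing x with
  | zero =>
    refine (H_hasDerivAt x).congr_deriv ?_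
    show _ = 2 ^ (0 + 1) * (H (2 * x) - H (2 * x - 1))
    ring
  | succ k ih =>
    have a1 : HasDerivAt (fun x : ℝ => 2 * x) 2 x := by
      simpa using (hasDerivAt_id x).const_mul (2:ℝ)
    have a2 : HasDerivAt (fun x : ℝ => 2 * x - 1) 2 x := a1.sub_const 1
    have b1 := (ih (2 * x)).comp x a1
    have b2 := (ih (2 * x - 1)).comp x a2
    have b3 := (b1.sub b2).const_mul ((2:ℝ) ^ (k + 1))
    refine b3.congr_deriv ?_
    show _ = 2 ^ (k + 1 + 1) * (D (k + 1) (2 * x) - D (k + 1) (2 * x - 1))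
    ring

theorem D_bound (k : ℕ) (x : ℝ) : |D k x| ≤ 2 ^ (k * (k + 1)) := by
  induction k generalizing x with
  | zero =>
    show |H x| ≤ _
    rw [abs_of_nonneg (prof_H.nonneg x)]
    simpa using prof_H.le_one x
  | succ k ih =>
    show |2 ^ (k + 1) * (D k (2 * x) - D k (2 * x - 1))| ≤ _
    rw [abs_mul, abs_of_pos (by positivity : (0:ℝ) < 2 ^ (k + 1))]
    have h1 := ih (2 * x)
    have h2 := ih (2 * x - 1)
    have h3 : |D k (2 * x) - D k (2 * x - 1)| ≤ 2 * 2 ^ (k * (k + 1)) := by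
      refine (abs_sub _ _).trans ?_
      linarith
    calc 2 ^ (k + 1) * |D k (2 * x) - D k (2 * x - 1)| ≤ 2 ^ (k + 1) * (2 * 2 ^ (k * (k + 1))) := by
          gcongr
      _ = 2 ^ (k + 1 + 1 + k * (k + 1)) := by ring
      _ ≤ 2 ^ ((k + 1) * (k + 1 + 1)) := by
          apply pow_le_pow_right₀ (by norm_num)
          nlinarith

/-- exponent `1 + 2 + ... + N` -/
def tri (N : ℕ) : ℕ := ∑ i ∈ Finset.range N, (i + 1)

/-- number of binary digits one among the first `N` -/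
def bs (N m : ℕ) : ℕ := ∑ i ∈ Finset.range N, (m / 2 ^ i) % 2

/-- truncated power Thue-Morse sum -/
def AA {F : Type} [Field F] [LinearOrder F] (N r : ℕ) (x : F) : F :=
  (2 ^ tri N : F) * ((r.factorial : F))⁻¹ *
    ∑ m ∈ Finset.range (2 ^ N), (-1) ^ bs N m * (max (x - (m : F) * ((2 ^ N : ℕ) : F)⁻¹) 0) ^ r

theorem AA_cast (N r : ℕ) (q : ℚ) : ((AA N r q : ℚ) : ℝ) = AA N r (q : ℝ) := by
  unfold AA
  push_cast
  rfl

theorem bs_succ_of_lt {N m : ℕ} (hm : m < 2 ^ N) : bs (N + 1) m = bs N m := by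
  unfold bs
  rw [Finset.sum_range_succ, Nat.div_eq_of_lt hm]
  simp

theorem bs_succ_add {N m : ℕ} (hm : m < 2 ^ N) : bs (N + 1) (2 ^ N + m) = bs N m + 1 := by
  unfold bs
  rw [Finset.sum_range_succ]
  have h1 : (2 ^ N + m) / 2 ^ N = 1 := by
    rw [Nat.add_div_left _ (by positivity), Nat.div_eq_of_lt hm]
  rw [h1]
  congr 1
  apply Finset.sum_congr rfl
  intro i hi
  rw [Finset.mem_range] at hi
  have h2 : 2 ^ N + m = m + 2 ^ i * (2 * 2 ^ (N - i - 1)) := by
    have : 2 ^ N = 2 ^ i * (2 * 2 ^ (N - i - 1)) := by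
      rw [← pow_succ', ← pow_add]; congr 1; omega
    omega
  rw [h2, Nat.add_mul_div_left _ _ (by positivity)]
  omega

theorem AA_succ (N r : ℕ) (x : ℝ) :
    AA (N + 1) r x = 2 ^ (N + 1) / 2 ^ r * (AA N r (2 * x) - AA N r (2 * x - 1)) := by
  unfold AA
  have h2 : (2:ℕ) ^ (N + 1) = 2 ^ N + 2 ^ N := by ring
  have e1 : ∀ m : ℕ, m ∈ Finset.range (2 ^ N) →
      (-1 : ℝ) ^ bs (N + 1) m * (max (x - (m : ℝ) * ((2 ^ (N + 1) : ℕ) : ℝ)⁻¹) 0) ^ r
      = (2 ^ r)⁻¹ * ((-1 : ℝ) ^ bs N m * (max (2 * x - (m : ℝ) * ((2 ^ N : ℕ) : ℝ)⁻¹) 0) ^ r) := by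
    intro m hm
    rw [bs_succ_of_lt (Finset.mem_range.1 hm)]
    have : max (x - (m : ℝ) * ((2 ^ (N + 1) : ℕ) : ℝ)⁻¹) 0
        = 2⁻¹ * max (2 * x - (m : ℝ) * ((2 ^ N : ℕ) : ℝ)⁻¹) 0 := by
      rw [mul_max_of_nonneg _ _ (by norm_num : (0:ℝ) ≤ 2⁻¹), mul_zero]
      congr 1
      push_cast
      rw [pow_succ]
      field_simp
    rw [this, mul_pow, inv_pow]
    ring
  have e2 : ∀ m : ℕ, m ∈ Finset.range (2 ^ N) →
      (-1 : ℝ) ^ bs (N + 1) (2 ^ N + m) * (max (x - ((2 ^ N + m : ℕ) : ℝ) * ((2 ^ (N + 1) : ℕ) : ℝ)⁻¹) 0) ^ r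
      = - ((2 ^ r)⁻¹ * ((-1 : ℝ) ^ bs N m * (max (2 * x - 1 - (m : ℝ) * ((2 ^ N : ℕ) : ℝ)⁻¹) 0) ^ r)) := by
    intro m hm
    rw [bs_succ_add (Finset.mem_range.1 hm)]
    have : max (x - ((2 ^ N + m : ℕ) : ℝ) * ((2 ^ (N + 1) : ℕ) : ℝ)⁻¹) 0
        = 2⁻¹ * max (2 * x - 1 - (m : ℝ) * ((2 ^ N : ℕ) : ℝ)⁻¹) 0 := by
      rw [mul_max_of_nonneg _ _ (by norm_num : (0:ℝ) ≤ 2⁻¹), mul_zero]
      congr 1
      push_cast
      rw [pow_succ]
      field_simp
      ring
    rw [this, mul_pow, inv_pow]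
    ring
  have htri : tri (N + 1) = tri N + (N + 1) := by unfold tri; rw [Finset.sum_range_succ]
  conv_lhs => rw [h2, Finset.sum_range_add]
  rw [← h2, Finset.sum_congr rfl e1, Finset.sum_congr rfl e2, Finset.sum_neg_distrib,
    ← Finset.mul_sum, ← Finset.mul_sum, htri, pow_add]
  field_simp
  ring

theorem hasDerivAt_truncPow (r : ℕ) (hr : 1 ≤ r) (a x : ℝ) :
    HasDerivAt (fun u => (max (u - a) 0) ^ (r + 1)) ((r + 1 : ℕ) * (max (x - a) 0) ^ r) x := by
  rcases lt_trichotomy x a with h | h | h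
  · have e : (fun u => (max (u - a) 0) ^ (r + 1)) =ᶠ[nhds x] fun _ => (0:ℝ) := by
      filter_upwards [Iio_mem_nhds h] with u hu
      rw [max_eq_right (by simpa using (le_of_lt hu))]
      simp
    rw [max_eq_right (by linarith), zero_pow (by omega), mul_zero]
    exact (hasDerivAt_const x (0:ℝ)).congr_of_eventuallyEq e
  · subst h
    have h0 : ((r + 1 : ℕ) : ℝ) * (max (x - x) 0) ^ r = 0 := by
      rw [sub_self, max_self, zero_pow (by omega), mul_zero]
    rw [h0, hasDerivAt_iff_tendsto_slope]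
    have e : slope (fun u => (max (u - x) 0) ^ (r + 1)) x =ᶠ[nhdsWithin x {x}ᶜ]
        fun u => (max (u - x) 0) ^ r := by
      filter_upwards [self_mem_nhdsWithin] with u hu
      have hne : u - x ≠ 0 := sub_ne_zero.2 hu
      rw [slope_def_field]
      simp only [sub_self, max_self]
      rw [zero_pow (by omega : r + 1 ≠ 0), sub_zero]
      rcases lt_or_gt_of_ne hne with h1 | h1
      · rw [max_eq_right h1.le, zero_pow (by omega : r + 1 ≠ 0), zero_pow (by omega : r ≠ 0)]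
        simp
      · rw [max_eq_left h1.le, pow_succ]
        field_simp
    rw [Filter.tendsto_congr' e]
    have hc : Continuous fun u : ℝ => (max (u - x) 0) ^ r := by fun_prop
    have := hc.tendsto x
    simp only [sub_self, max_self] at this
    rw [zero_pow (by omega : r ≠ 0)] at this
    exact this.mono_left nhdsWithin_le_nhds
  · have e : (fun u => (max (u - a) 0) ^ (r + 1)) =ᶠ[nhds x] fun u => (u - a) ^ (r + 1) := by
      filter_upwards [Ioi_mem_nhds h] with u hu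
      rw [max_eq_left (by simpa using (le_of_lt hu))]
    rw [max_eq_left (by linarith)]
    have h2 := ((hasDerivAt_id x).sub_const a).pow (r + 1)
    simp only [id, mul_one, Nat.add_sub_cancel] at h2
    exact h2.congr_of_eventuallyEq e

theorem AA_hasDerivAt (M r : ℕ) (hr : 1 ≤ r) (x : ℝ) :
    HasDerivAt (fun x : ℝ => AA M (r + 1) x) (AA M r x) x := by
  unfold AA
  have h1 : HasDerivAt (fun x : ℝ => ∑ m ∈ Finset.range (2 ^ M),
      (-1 : ℝ) ^ bs M m * (max (x - (m : ℝ) * ((2 ^ M : ℕ) : ℝ)⁻¹) 0) ^ (r + 1))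
      (∑ m ∈ Finset.range (2 ^ M), (-1 : ℝ) ^ bs M m *
        (((r + 1 : ℕ) : ℝ) * (max (x - (m : ℝ) * ((2 ^ M : ℕ) : ℝ)⁻¹) 0) ^ r)) x := by
    apply HasDerivAt.fun_sum
    intro m _
    exact (hasDerivAt_truncPow r hr _ x).const_mul _
  refine (h1.const_mul _).congr_deriv ?_
  rw [Nat.factorial_succ, Finset.mul_sum, Finset.mul_sum]
  apply Finset.sum_congr rfl
  intro m _
  have : ((r + 1 : ℕ) : ℝ) ≠ 0 := by positivity
  have h2 : (r.factorial : ℝ) ≠ 0 := by positivity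
  push_cast
  push_cast at this
  field_simp

theorem AA_zero_arg (M r : ℕ) (hr : 1 ≤ r) : AA M r (0 : ℝ) = 0 := by
  unfold AA
  rw [Finset.sum_eq_zero, mul_zero]
  intro m _
  have : (0:ℝ) ≤ (m : ℝ) * ((2 ^ M : ℕ) : ℝ)⁻¹ := by positivity
  rw [max_eq_right (by linarith), zero_pow (by omega), mul_zero]

theorem AA_one_one (x : ℝ) : AA 1 1 x = Hn 0 x := by
  show _ = clamp (2 * x)
  unfold AA clamp
  have h1 : tri 1 = 1 := rfl
  have h2 : bs 1 0 = 0 := rfl
  have h3 : bs 1 1 = 1 := rfl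
  rw [h1, show (2:ℕ) ^ 1 = 1 + 1 by norm_num, Finset.sum_range_succ, Finset.sum_range_succ,
    Finset.sum_range_zero, h2, h3]
  simp only [Nat.factorial_one, Nat.cast_one, inv_one, pow_one, pow_zero, Nat.cast_zero, zero_mul,
    sub_zero, one_mul, zero_add]
  norm_num
  rcases le_total x 0 with h | h
  · rw [max_eq_right h, max_eq_right (by linarith), max_eq_left (by linarith)]; norm_num
  · rcases le_total x (1/2) with h' | h'
    · rw [max_eq_left h, max_eq_right (by linarith), max_eq_right (by linarith),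
        min_eq_right (by linarith)]; ring
    · rw [max_eq_left h, max_eq_left (by linarith), max_eq_right (by linarith),
        min_eq_left (by linarith)]; ring

theorem AA_eq_Hn (N : ℕ) (x : ℝ) : AA (N + 1) (N + 1) x = Hn N x := by
  induction N generalizing x with
  | zero => exact AA_one_one x
  | succ N ih =>
    have hd1 : ∀ x, HasDerivAt (fun x : ℝ => AA (N + 1 + 1) (N + 1 + 1) x)
        (2 * Hn N (2 * x) - 2 * Hn N (2 * x - 1)) x := by
      intro x
      refine (AA_hasDerivAt (N + 1 + 1) (N + 1) (by omega) x).congr_deriv ?_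
      rw [AA_succ, ih, ih]
      rw [pow_succ (2:ℝ) (N + 1)]
      field_simp
    have hd2 : ∀ x, HasDerivAt (Hn (N + 1)) (2 * Hn N (2 * x) - 2 * Hn N (2 * x - 1)) x :=
      fun x => K_hasDerivAt (prof_Hn N).cont x
    have hd : ∀ x, HasDerivAt (fun x => AA (N + 1 + 1) (N + 1 + 1) x - Hn (N + 1) x) 0 x := by
      intro x
      refine ((hd1 x).sub (hd2 x)).congr_deriv (by ring)
    have hc := is_const_of_deriv_eq_zero (fun x => (hd x).differentiableAt) (fun x => (hd x).deriv) x 0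
    have h0 : AA (N + 1 + 1) (N + 1 + 1) (0:ℝ) = 0 := AA_zero_arg _ _ (by omega)
    have h1 : Hn (N + 1) 0 = 0 := (prof_Hn (N + 1)).zero 0 le_rfl
    simp only [h0, h1] at hc
    linarith

theorem D_close (k N : ℕ) (x : ℝ) :
    |D k x - AA (N + 1 + k) (N + 1) x| ≤ 2 ^ (k * (k + 1)) * (1 / 2) ^ N := by
  induction k generalizing x with
  | zero =>
    rw [Nat.add_zero, AA_eq_Hn]
    have := H_close N x
    show |H x - Hn N x| ≤ _
    simpa using this
  | succ k ih =>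
    rw [show N + 1 + (k + 1) = (N + 1 + k) + 1 by ring, AA_succ]
    show |2 ^ (k + 1) * (D k (2 * x) - D k (2 * x - 1)) - _| ≤ _
    have e : (2:ℝ) ^ (N + 1 + k + 1) / 2 ^ (N + 1) = 2 ^ (k + 1) := by
      rw [show N + 1 + k + 1 = (N + 1) + (k + 1) by ring, pow_add]
      field_simp
    rw [e, ← mul_sub, abs_mul, abs_of_pos (by positivity : (0:ℝ) < 2 ^ (k + 1))]
    have h1 := ih (2 * x)
    have h2 := ih (2 * x - 1)
    have h3 : |D k (2 * x) - D k (2 * x - 1) - (AA (N + 1 + k) (N + 1) (2 * x)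
        - AA (N + 1 + k) (N + 1) (2 * x - 1))| ≤ 2 * (2 ^ (k * (k + 1)) * (1 / 2) ^ N) := by
      rw [abs_le] at h1 h2 ⊢
      constructor <;> linarith [h1.1, h1.2, h2.1, h2.2]
    calc (2:ℝ) ^ (k + 1) * |D k (2 * x) - D k (2 * x - 1) - (AA (N + 1 + k) (N + 1) (2 * x)
        - AA (N + 1 + k) (N + 1) (2 * x - 1))|
        ≤ 2 ^ (k + 1) * (2 * (2 ^ (k * (k + 1)) * (1 / 2) ^ N)) := by gcongr
      _ = 2 ^ (k + 1 + 1 + k * (k + 1)) * (1/2) ^ N := by ring
      _ ≤ 2 ^ ((k + 1) * (k + 1 + 1)) * (1/2) ^ N := by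
          gcongr
          · norm_num
          · nlinarith

/-- the rational approximation to the derivatives of `H` -/
def eH (p : ℕ × ℚ × ℕ) : ℚ :=
  AA (p.1 * (p.1 + 1) + p.2.2 + 1 + p.1) (p.1 * (p.1 + 1) + p.2.2 + 1) p.2.1

theorem eH_spec (k : ℕ) (q : ℚ) (n : ℕ) : |D k (q : ℝ) - (eH (k, q, n) : ℝ)| ≤ 1 / ((n : ℝ) + 1) := by
  unfold eH
  rw [AA_cast]
  refine (D_close k (k * (k + 1) + n) (q : ℝ)).trans ?_
  have h1 : (2:ℝ) ^ (k * (k + 1)) * (1 / 2) ^ (k * (k + 1) + n) = (1/2) ^ n := by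
    rw [pow_add, ← mul_assoc, ← mul_pow]; norm_num
  rw [h1, one_div, inv_pow, one_div]
  apply inv_anti₀ (by positivity)
  have : n + 1 ≤ 2 ^ n := Nat.lt_two_pow_self
  exact_mod_cast this

open RatComp in
theorem computable_AA : Computable fun p : ℕ × ℕ × ℚ => AA p.1 p.2.1 p.2.2 := by
  have hN : Computable fun p : ℕ × ℕ × ℚ => p.1 := Computable.fst
  have hr : Computable fun p : ℕ × ℕ × ℚ => p.2.1 := Computable.fst.comp Computable.snd
  have htri : Computable fun p : ℕ × ℕ × ℚ => tri p.1 :=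
    comp_natSum (f := fun _ i => i + 1) (Computable.succ.comp Computable.snd) hN
  have h2 : Computable fun p : ℕ × ℕ × ℚ => (2 : ℚ) ^ tri p.1 :=
    comp_pow (Computable.const 2) htri
  have h3 : Computable fun p : ℕ × ℕ × ℚ => ((p.2.1.factorial : ℕ) : ℚ)⁻¹ :=
    comp_natInv (comp_factorial hr)
  have hbs : Computable fun z : (ℕ × ℕ × ℚ) × ℕ => bs z.1.1 z.2 := by
    refine comp_natSum (α := (ℕ × ℕ × ℚ) × ℕ) (f := fun z i => (z.2 / 2 ^ i) % 2)
      (g := fun z => z.1.1) ?_ (Computable.fst.comp Computable.fst)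
    exact nat_mod'.comp (nat_div'.comp (Computable.snd.comp Computable.fst)
      (comp_natPow (Computable.const 2) Computable.snd)) (Computable.const 2)
  have hterm : Computable₂ fun (p : ℕ × ℕ × ℚ) (m : ℕ) =>
      (-1 : ℚ) ^ bs p.1 m * (max (p.2.2 - (m : ℚ) * ((2 ^ p.1 : ℕ) : ℚ)⁻¹) 0) ^ p.2.1 := by
    refine comp_mul (comp_pow (Computable.const (-1)) hbs) (comp_pow (comp_posPart (comp_sub ?_ ?_)) ?_)
    · exact Computable.snd.comp (Computable.snd.comp Computable.fst)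
    · exact comp_mul (comp_natCast Computable.snd)
        (comp_natInv (comp_natPow (Computable.const 2) (Computable.fst.comp Computable.fst)))
    · exact Computable.fst.comp (Computable.snd.comp Computable.fst)
  exact comp_mul (comp_mul h2 h3) (comp_sum hterm (comp_natPow (Computable.const 2) hN))

open RatComp in
theorem computable_eH : Computable eH := by
  have hk : Computable fun p : ℕ × ℚ × ℕ => p.1 := Computable.fst
  have hq : Computable fun p : ℕ × ℚ × ℕ => p.2.1 := Computable.fst.comp Computable.snd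
  have hn : Computable fun p : ℕ × ℚ × ℕ => p.2.2 := Computable.snd.comp Computable.snd
  have h1 : Computable fun p : ℕ × ℚ × ℕ => p.1 * (p.1 + 1) + p.2.2 + 1 :=
    Computable.succ.comp (nat_add'.comp (nat_mul'.comp hk (Computable.succ.comp hk)) hn)
  have h2 : Computable fun p : ℕ × ℚ × ℕ => p.1 * (p.1 + 1) + p.2.2 + 1 + p.1 :=
    nat_add'.comp h1 hk
  have h3 := computable_AA.comp (h2.pair (h1.pair hq))
  refine h3.of_eq ?_
  rintro ⟨k, q, n⟩
  rfl

end Crest.Agent.H2.Step
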